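import Crest.Agent.N336.Q.Cond

-- ▼ part N336/P/CL/Fro
section

/-!
# Row 336, compression lemma (helper52): Frobenius norm, averages, random operators
-/

set_option autoImplicit false
set_option linter.unusedSectionVars false

open Matrix Finset
open scoped ComplexOrder MatrixOrder Matrix.Norms.L2Operator InnerProductSpace

namespace Crest.Agent.N336.CL

variable {m n p : Type} [Fintype m] [Fintype n] [Fintype p]

/-! ### averages -/

section av

variable {W W' M : Type} [Fintype W] [Fintype W'] [AddCommGroup M] [Module ℝ M]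

/-- uniform average -/
noncomputable def av (f : W → M) : M := ((Fintype.card W : ℝ)⁻¹) • ∑ w, f w

lemma av_add (f g : W → M) : av (fun w => f w + g w) = av f + av g := by
  simp [av, sum_add_distrib]

lemma av_sub (f g : W → M) : av (fun w => f w - g w) = av f - av g := by
  simp [av, sum_sub_distrib, smul_sub]

lemma av_sum {κ : Type*} (s : Finset κ) (f : κ → W → M) :
    av (fun w => ∑ i ∈ s, f i w) = ∑ i ∈ s, av (f i) := by
  simp only [av, ← smul_sum]; rw [sum_comm]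

lemma av_zero : av (fun _ : W => (0 : M)) = 0 := by simp [av]

lemma av_const [Nonempty W] (c : M) : av (fun _ : W => c) = c := by
  have : (Fintype.card W : ℝ) ≠ 0 := by exact_mod_cast Fintype.card_ne_zero
  simp only [av, sum_const, card_univ, ← Nat.cast_smul_eq_nsmul ℝ, smul_smul,
    inv_mul_cancel₀ this, one_smul]

lemma av_prod (f : W × W' → M) : av f = av fun w => av fun w' => f (w, w') := by
  simp only [av, Fintype.card_prod, Nat.cast_mul, mul_inv, Fintype.sum_prod_type, ← smul_sum,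
    smul_smul]

lemma av_comm (f : W → W' → M) :
    (av fun w => av fun w' => f w w') = av fun w' => av fun w => f w w' := by
  simp only [av, ← smul_sum, smul_smul]; rw [sum_comm, mul_comm]

lemma av_equiv (e : W ≃ W') (f : W' → M) : av (fun w => f (e w)) = av f := by
  simp only [av, Fintype.card_congr e, Equiv.sum_comp e f]

lemma av_map {N : Type} [AddCommGroup N] [Module ℝ N] (L : M →ₗ[ℝ] N) (f : W → M) :
    L (av f) = av fun w => L (f w) := by simp [av, map_sum]

lemma smul_av (c : ℝ) (f : W → M) : c • av f = av fun w => c • f w :=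
  av_map (c • LinearMap.id) f

lemma av_pi {κ : Type} [Fintype κ] [DecidableEq κ] {V : κ → Type} [∀ i, Fintype (V i)]
    [∀ i, Nonempty (V i)] (i : κ) (f : V i → M) : av (fun w : ∀ j, V j => f (w i)) = av f := by
  rw [← av_equiv (Equiv.piSplitAt i V).symm, av_prod]
  simp [Equiv.piSplitAt, av_const]

lemma av_mono {f g : W → ℝ} (h : ∀ w, f w ≤ g w) : av f ≤ av g := by
  simp only [av, smul_eq_mul]
  exact mul_le_mul_of_nonneg_left (sum_le_sum fun w _ => h w) (by positivity)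

lemma av_nonneg {f : W → ℝ} (h : ∀ w, 0 ≤ f w) : 0 ≤ av f := by
  have := av_mono (f := fun _ : W => (0 : ℝ)) h
  rwa [av_zero] at this

lemma exists_le_av [Nonempty W] (f : W → ℝ) : ∃ w, f w ≤ av f := by
  by_contra h
  push Not at h
  obtain ⟨w, -, hw⟩ := exists_min_image univ f univ_nonempty
  have := av_mono (f := fun _ : W => f w) (g := f) fun v => hw v (mem_univ v)
  rw [av_const] at this
  exact absurd (h w) (not_lt.2 this)

lemma av_le_sqrt [Nonempty W] (f : W → ℝ) : av f ≤ √(av fun w => f w ^ 2) := by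
  refine Real.le_sqrt_of_sq_le ?_
  have h0 : 0 ≤ av fun w => (f w - av f) ^ 2 := av_nonneg fun w => sq_nonneg _
  have h1 : (fun w => (f w - av f) ^ 2) = fun w => f w ^ 2 - (2 * av f) • f w + av f ^ 2 := by
    funext w; simp only [smul_eq_mul]; ring
  have h2 : av (fun w => (2 * av f) • f w) = (2 * av f) • av f :=
    (av_map ((2 * av f) • LinearMap.id) f).symm
  rw [h1, av_add, av_sub, av_const, h2, smul_eq_mul] at h0
  nlinarith

lemma av_apply (f : W → Matrix m n ℂ) (i : m) (j : n) : av f i j = av fun w => f w i j := by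
  simp [av, Matrix.sum_apply]

lemma av_apply' (f : W → m → ℂ) (i : m) : av f i = av fun w => f w i := by
  simp [av]

lemma mul_av (A : Matrix m n ℂ) (f : W → Matrix n p ℂ) : A * av f = av fun w => A * f w := by
  simp [av, Matrix.mul_sum]

lemma av_mul (f : W → Matrix m n ℂ) (A : Matrix n p ℂ) : av f * A = av fun w => f w * A := by
  simp [av, Matrix.sum_mul]

lemma av_conjTranspose (f : W → Matrix m n ℂ) : (av f)ᴴ = av fun w => (f w)ᴴ := by
  simp [av, conjTranspose_sum]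

lemma trace_av (f : W → Matrix n n ℂ) : trace (av f) = av fun w => trace (f w) := by
  simp [av, trace_sum]

lemma re_av (f : W → ℂ) : (av f).re = av fun w => (f w).re := av_map Complex.reLm f

lemma cmul_av (c : ℂ) (f : W → ℂ) : c * av f = av fun w => c * f w := by
  simp [av, mul_sum, mul_left_comm]

lemma av_cmul (c : ℂ) (f : W → ℂ) : av f * c = av fun w => f w * c := by
  simp [av, sum_mul, mul_assoc]

lemma av_posSemidef [DecidableEq n] {f : W → Matrix n n ℂ} (h : ∀ w, (f w).PosSemidef) :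
    (av f).PosSemidef :=
  (posSemidef_sum _ fun w _ => h w).smul (by positivity)

lemma av_le_av [DecidableEq n] {f g : W → Matrix n n ℂ} (h : ∀ w, f w ≤ g w) : av f ≤ av g := by
  rw [Matrix.le_iff, ← av_sub]; exact av_posSemidef fun w => Matrix.le_iff.1 (h w)

end av

/-! ### Frobenius norm -/

/-- squared Euclidean norm of a plain function -/
noncomputable def nsq (x : n → ℂ) : ℝ := ∑ i, ‖x i‖ ^ 2

lemma nsq_nonneg (x : n → ℂ) : 0 ≤ nsq x := sum_nonneg fun _ _ => sq_nonneg _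

lemma nsq_eq (x : EuclideanSpace ℂ n) : nsq x.ofLp = ‖x‖ ^ 2 :=
  (EuclideanSpace.norm_sq_eq x).symm

lemma nsq_mulVec_le [DecidableEq n] {R : Matrix m n ℂ} (h : ‖R‖ ≤ 1) (x : n → ℂ) :
    nsq (R *ᵥ x) ≤ nsq x := by
  have h1 := Matrix.l2_opNorm_mulVec R (WithLp.toLp 2 x)
  have h2 : ‖(WithLp.toLp 2 (R *ᵥ x) : EuclideanSpace ℂ m)‖ ≤ ‖(WithLp.toLp 2 x : EuclideanSpace ℂ n)‖ :=
    h1.trans (mul_le_of_le_one_left (norm_nonneg _) h)
  have h3 := nsq_eq (WithLp.toLp 2 (R *ᵥ x))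
  have h4 := nsq_eq (WithLp.toLp 2 x)
  simp only at h3 h4
  rw [h3, h4]
  exact pow_le_pow_left₀ (norm_nonneg _) h2 2

/-- a matrix as a vector -/
noncomputable def vc (M : Matrix m n ℂ) : EuclideanSpace ℂ (m × n) :=
  WithLp.toLp 2 fun x => M x.1 x.2

/-- Frobenius norm -/
noncomputable def fro (M : Matrix m n ℂ) : ℝ := ‖vc M‖

lemma fro_nonneg (M : Matrix m n ℂ) : 0 ≤ fro M := norm_nonneg _

lemma fro_sq (M : Matrix m n ℂ) : fro M ^ 2 = ∑ i, ∑ j, ‖M i j‖ ^ 2 := by
  rw [fro, EuclideanSpace.norm_sq_eq, Fintype.sum_prod_type]; rfl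

lemma fro_le_of_sq {M : Matrix m n ℂ} {c : ℝ} (hc : 0 ≤ c) (h : fro M ^ 2 ≤ c ^ 2) : fro M ≤ c :=
  (pow_le_pow_iff_left₀ (fro_nonneg _) hc two_ne_zero).1 h

lemma fro_add_le (M N : Matrix m n ℂ) : fro (M + N) ≤ fro M + fro N := norm_add_le (vc M) (vc N)

lemma fro_sub_le (M N : Matrix m n ℂ) : fro (M - N) ≤ fro M + fro N := norm_sub_le (vc M) (vc N)

lemma fro_zero : fro (0 : Matrix m n ℂ) = 0 := norm_zero (E := EuclideanSpace ℂ (m × n))

lemma fro_sum_le {κ : Type*} (s : Finset κ) (M : κ → Matrix m n ℂ) :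
    fro (∑ i ∈ s, M i) ≤ ∑ i ∈ s, fro (M i) :=
  Finset.le_sum_of_subadditive fro fro_zero.le fro_add_le s M

lemma fro_smul (c : ℝ) (M : Matrix m n ℂ) : fro (c • M) = |c| * fro M := by
  have : vc (c • M) = c • vc M := rfl
  rw [fro, this, norm_smul, Real.norm_eq_abs, fro]

lemma fro_conjTranspose (M : Matrix m n ℂ) : fro Mᴴ = fro M := by
  refine (pow_left_inj₀ (fro_nonneg _) (fro_nonneg _) two_ne_zero).1 ?_
  rw [fro_sq, fro_sq, sum_comm]; simp

lemma inner_vc (A B : Matrix m n ℂ) : ⟪vc A, vc B⟫_ℂ = trace (Aᴴ * B) := by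
  simp only [PiLp.inner_apply, Fintype.sum_prod_type, trace, diag_apply, mul_apply,
    conjTranspose_apply, vc]
  rw [sum_comm]
  simp [mul_comm]

lemma re_trace_le (A B : Matrix m n ℂ) : (trace (Aᴴ * B)).re ≤ fro A * fro B := by
  rw [← inner_vc]
  exact (Complex.re_le_norm _).trans (norm_inner_le_norm _ _)

lemma fro_sq_eq_trace (A : Matrix m n ℂ) : fro A ^ 2 = (trace (Aᴴ * A)).re := by
  rw [← inner_vc, fro]; exact (inner_self_eq_norm_sq (𝕜 := ℂ) (vc A)).symm

lemma fro_mul_le_left [DecidableEq n] {R : Matrix m n ℂ} (h : ‖R‖ ≤ 1) (X : Matrix n p ℂ) :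
    fro (R * X) ≤ fro X := by
  refine fro_le_of_sq (fro_nonneg _) ?_
  rw [fro_sq, fro_sq, sum_comm, sum_comm (s := univ (α := n))]
  exact sum_le_sum fun j _ => nsq_mulVec_le h fun i => X i j

lemma fro_conj_le [DecidableEq n] {R : Matrix m n ℂ} (h : ‖R‖ ≤ 1) (X : Matrix n n ℂ) :
    fro (R * X * Rᴴ) ≤ fro X := by
  rw [← fro_conjTranspose, conjTranspose_mul, conjTranspose_conjTranspose]
  refine (fro_mul_le_left h _).trans ?_
  rw [fro_conjTranspose]; exact fro_mul_le_left h _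

lemma fro_mul_le (A : Matrix m n ℂ) (B : Matrix n p ℂ) : fro (A * B) ≤ fro A * fro B := by
  refine fro_le_of_sq (mul_nonneg (fro_nonneg _) (fro_nonneg _)) ?_
  rw [mul_pow, fro_sq, fro_sq, fro_sq, sum_comm (s := univ (α := n)), sum_mul_sum]
  refine sum_le_sum fun i _ => sum_le_sum fun j _ => ?_
  rw [mul_apply]
  refine le_trans ?_ (sum_mul_sq_le_sq_mul_sq univ (fun k => ‖A i k‖) fun k => ‖B k j‖)
  refine pow_le_pow_left₀ (norm_nonneg _) ((norm_sum_le _ _).trans ?_) 2
  exact sum_le_sum fun k _ => (norm_mul _ _).le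

lemma fro_vecMulVec (x : m → ℂ) : fro (vecMulVec x (star x)) = nsq x := by
  refine (pow_left_inj₀ (fro_nonneg _) (nsq_nonneg _) two_ne_zero).1 ?_
  rw [fro_sq, nsq, sq (∑ _, _), sum_mul_sum]
  simp [vecMulVec_apply, mul_pow]

lemma fro_mono [DecidableEq n] {X Y : Matrix n n ℂ} (hX : X.PosSemidef) (h : X ≤ Y) :
    fro X ≤ fro Y := by
  have hY : Y.PosSemidef := by simpa using hX.add (Matrix.le_iff.1 h)
  refine fro_le_of_sq (fro_nonneg _) ?_
  rw [fro_sq_eq_trace, fro_sq_eq_trace, hX.1.eq, hY.1.eq]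
  refine (Q.re_trace_mul_mono h hX).trans ?_
  rw [trace_mul_comm]; exact Q.re_trace_mul_mono h hY

/-! ### random operators -/

section HSB

variable {W W' : Type} [Fintype W] [Fintype W']

/-- `Z ↦ 𝔼 K Z Kᴴ` has Hilbert-Schmidt norm at most `c` -/
def HSB (c : ℝ) (K : W → Matrix m n ℂ) : Prop :=
  0 ≤ c ∧ ∀ Z : Matrix n n ℂ, fro (av fun w => K w * Z * (K w)ᴴ) ≤ c * fro Z

lemma HSB.mono {c c' : ℝ} {K : W → Matrix m n ℂ} (h : HSB c K) (hc : c ≤ c') : HSB c' K :=
  ⟨h.1.trans hc, fun Z => (h.2 Z).trans (mul_le_mul_of_nonneg_right hc (fro_nonneg _))⟩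

lemma HSB.adj {c : ℝ} {K : W → Matrix m n ℂ} (h : HSB c K) : HSB c fun w => (K w)ᴴ := by
  refine ⟨h.1, fun Z => ?_⟩
  simp only [conjTranspose_conjTranspose]
  obtain ⟨Y, hY⟩ : ∃ Y, Y = av fun w => (K w)ᴴ * Z * K w := ⟨_, rfl⟩
  rw [← hY]
  have h1 : trace (Yᴴ * Y) = trace ((av fun w => K w * Y * (K w)ᴴ)ᴴ * Z) := by
    have h0 : Yᴴ * Y = av fun w => Yᴴ * ((K w)ᴴ * Z * K w) := by rw [← mul_av, ← hY]
    rw [h0, av_conjTranspose, av_mul, trace_av, trace_av]
    congr 1; funext w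
    simp only [conjTranspose_mul, conjTranspose_conjTranspose, Matrix.mul_assoc]
    rw [trace_mul_comm (K w)]
    simp only [Matrix.mul_assoc]
  have h2 : fro Y ^ 2 ≤ c * fro Y * fro Z := by
    rw [fro_sq_eq_trace, h1]
    exact (re_trace_le _ _).trans (mul_le_mul_of_nonneg_right (h.2 Y) (fro_nonneg _))
  rcases (fro_nonneg Y).eq_or_lt with h0 | h0
  · rw [← h0]; exact mul_nonneg h.1 (fro_nonneg _)
  · nlinarith

lemma HSB.pi {κ : Type} [Fintype κ] [DecidableEq κ] {V : κ → Type} [∀ i, Fintype (V i)]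
    [∀ i, Nonempty (V i)] (i : κ) {c : ℝ} {K : V i → Matrix m n ℂ} (h : HSB c K) :
    HSB c fun w : ∀ j, V j => K (w i) :=
  ⟨h.1, fun Z => by rw [av_pi i fun v => K v * Z * (K v)ᴴ]; exact h.2 Z⟩

/-- `That` is an unbiased estimator of the contraction `T` with variance `u - 1` -/
structure Appr [DecidableEq n] (That : W → Matrix m n ℂ) (T : Matrix m n ℂ) (u : ℝ) : Prop where
  mean : av That = T
  con : ‖T‖ ≤ 1
  dev : HSB (u - 1) fun w => That w - T

variable [DecidableEq m] [DecidableEq n] [DecidableEq p]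

lemma Appr.mono {That : W → Matrix m n ℂ} {T : Matrix m n ℂ} {u u' : ℝ} (h : Appr That T u)
    (hu : u ≤ u') : Appr That T u' := ⟨h.mean, h.con, h.dev.mono (by linarith)⟩

lemma Appr.adj {That : W → Matrix m n ℂ} {T : Matrix m n ℂ} {u : ℝ} (h : Appr That T u) :
    Appr (fun w => (That w)ᴴ) Tᴴ u :=
  ⟨by rw [← av_conjTranspose, h.mean], by rw [l2_opNorm_conjTranspose]; exact h.con,
    by simpa only [conjTranspose_sub] using h.dev.adj⟩

lemma Appr.const [Nonempty W] {T : Matrix m n ℂ} (h : ‖T‖ ≤ 1) : Appr (fun _ : W => T) T 1 :=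
  ⟨av_const _, h, by simp, fun Z => by simp [av_zero, fro_zero]⟩

lemma av_conj_add [Nonempty W] {D : W → Matrix m n ℂ} (hD : av D = 0) (A : Matrix n p ℂ)
    (B : Matrix m p ℂ) (Z : Matrix p p ℂ) :
    (av fun w => (D w * A + B) * Z * (D w * A + B)ᴴ) =
      (av fun w => D w * (A * Z * Aᴴ) * (D w)ᴴ) + B * Z * Bᴴ := by
  have h1 : (fun w => (D w * A + B) * Z * (D w * A + B)ᴴ) = fun w =>
      D w * (A * Z * Aᴴ) * (D w)ᴴ + (D w * (A * Z * Bᴴ) + (B * Z * Aᴴ * (D w)ᴴ + B * Z * Bᴴ)) := by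
    funext w
    simp only [conjTranspose_add, conjTranspose_mul, Matrix.add_mul, Matrix.mul_add,
      Matrix.mul_assoc]
    abel
  rw [h1, av_add, av_add, av_add, av_const, ← av_mul, ← mul_av, ← av_conjTranspose, hD]
  simp

lemma Appr.dev_mean [Nonempty W] {That : W → Matrix m n ℂ} {T : Matrix m n ℂ} {u : ℝ}
    (h : Appr That T u) : (av fun w => That w - T) = 0 := by
  rw [av_sub, av_const, h.mean, sub_self]

lemma Appr.hsb [Nonempty W] {That : W → Matrix m n ℂ} {T : Matrix m n ℂ} {u : ℝ}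
    (h : Appr That T u) : HSB u That := by
  refine ⟨by linarith [h.dev.1], fun Z => ?_⟩
  have h1 := av_conj_add h.dev_mean 1 T Z
  simp only [Matrix.mul_one, sub_add_cancel, Matrix.one_mul, conjTranspose_one] at h1
  rw [h1]
  refine (fro_add_le _ _).trans ?_
  linarith [h.dev.2 Z, fro_conj_le h.con Z]

lemma Appr.comp [Nonempty W] [Nonempty W'] {A : W → Matrix n p ℂ} {T : Matrix n p ℂ} {u : ℝ}
    {B : W' → Matrix m n ℂ} {R : Matrix m n ℂ} {v : ℝ} (hA : Appr A T u) (hB : Appr B R v) :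
    Appr (fun w : W × W' => B w.2 * A w.1) (R * T) (u * v) := by
  have hu := hA.dev.1
  have hv := hB.dev.1
  refine ⟨?_, ?_, by nlinarith, fun Z => ?_⟩
  · rw [av_prod]
    simp only [← av_mul, hB.mean, ← mul_av, hA.mean]
  · exact (l2_opNorm_mul _ _).trans (mul_le_one₀ hB.con (norm_nonneg _) hA.con)
  · have h1 : ∀ w : W × W', B w.2 * A w.1 - R * T = (B w.2 - R) * A w.1 + R * (A w.1 - T) := by
      intro w; simp only [Matrix.sub_mul, Matrix.mul_sub]; abel
    simp only [h1]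
    rw [av_prod]
    simp only [av_conj_add hB.dev_mean]
    rw [av_add, av_comm]
    have h2 : (av fun w => R * (A w - T) * Z * (R * (A w - T))ᴴ) =
        R * (av fun w => (A w - T) * Z * (A w - T)ᴴ) * Rᴴ := by
      rw [mul_av, av_mul]; simp only [conjTranspose_mul, Matrix.mul_assoc]
    simp only [h2, ← av_mul, ← mul_av]
    refine (fro_add_le _ _).trans ?_
    have h3 := hB.dev.2 (av fun w => A w * Z * (A w)ᴴ)
    have h4 := mul_le_mul_of_nonneg_left (hA.hsb.2 Z) hv
    have h5 := (fro_conj_le hB.con _).trans (hA.dev.2 Z)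
    nlinarith

end HSB

end Crest.Agent.N336.CL
end

-- ▼ part N336/P/CL/Src
section

/-!
# Row 336, compression lemma (helper52): sources `|a⟩ ⊗ 1`, amplification, partial trace
-/

set_option autoImplicit false
set_option linter.unusedSectionVars false

open Matrix Finset
open scoped ComplexOrder MatrixOrder Matrix.Norms.L2Operator InnerProductSpace

namespace Crest.Agent.N336.CL

open Q

variable {ι κ : Type} [Fintype ι] [DecidableEq ι] [Fintype κ] [DecidableEq κ]
  {d : ι → Type} [∀ x, Fintype (d x)] [∀ x, DecidableEq (d x)] {m : Type} [Fintype m]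

/-- glue an inside and an outside configuration -/
noncomputable abbrev gl (e : κ ↪ ι) (u : Cfg (sub e d)) (ρ : Rest (rg e) d) : Cfg d :=
  (eqv e d).symm (u, ρ)

lemma gl_res_off (e : κ ↪ ι) (σ : Cfg d) : gl e (res e σ) (off (rg e) σ) = σ :=
  (eqv e d).symm_apply_apply σ

lemma sum_cfg {M : Type} [AddCommMonoid M] (e : κ ↪ ι) (f : Cfg d → M) :
    ∑ σ, f σ = ∑ u, ∑ ρ, f (gl e u ρ) := by
  rw [← Equiv.sum_comp (eqv e d).symm, Fintype.sum_prod_type]

lemma gl_in (e : κ ↪ ι) (u : Cfg (sub e d)) (ρ : Rest (rg e) d) (k : κ) : gl e u ρ (e k) = u k :=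
  congrFun (res_symm e (u, ρ)) k

lemma gl_out (e : κ ↪ ι) (u : Cfg (sub e d)) (ρ : Rest (rg e) d) (x : ι) (hx : x ∉ rg e) :
    gl e u ρ x = ρ ⟨x, hx⟩ := congrFun (off_symm e (u, ρ)) ⟨x, hx⟩

/-- `|a⟩ ⊗ 1` -/
def src (e : κ ↪ ι) (a : Cfg (sub e d) → ℂ) : Matrix (Cfg d) (Rest (rg e) d) ℂ :=
  Matrix.of fun σ ρ => if off (rg e) σ = ρ then a (res e σ) else 0

lemma src_mul_apply (e : κ ↪ ι) (a : Cfg (sub e d) → ℂ) (X : Matrix (Rest (rg e) d) m ℂ)
    (σ : Cfg d) (j : m) : (src e a * X) σ j = a (res e σ) * X (off (rg e) σ) j := by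
  simp [src, mul_apply]

lemma mul_srcH_apply (e : κ ↪ ι) (a : Cfg (sub e d) → ℂ) (X : Matrix m (Rest (rg e) d) ℂ)
    (j : m) (σ : Cfg d) : (X * (src e a)ᴴ) j σ = X j (off (rg e) σ) * star (a (res e σ)) := by
  simp [src, mul_apply, apply_ite star]

lemma mul_src_apply (e : κ ↪ ι) (a : Cfg (sub e d) → ℂ) (X : Matrix m (Cfg d) ℂ)
    (j : m) (ρ : Rest (rg e) d) : (X * src e a) j ρ = ∑ u, X j (gl e u ρ) * a u := by
  rw [mul_apply, sum_cfg e]; simp [src]

lemma srcH_mul_apply (e : κ ↪ ι) (a : Cfg (sub e d) → ℂ) (X : Matrix (Cfg d) m ℂ)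
    (ρ : Rest (rg e) d) (j : m) : ((src e a)ᴴ * X) ρ j = ∑ u, star (a u) * X (gl e u ρ) j := by
  rw [mul_apply, sum_cfg e]; simp [src, apply_ite star]

lemma src_sub (e : κ ↪ ι) (a b : Cfg (sub e d) → ℂ) : src e (a - b) = src e a - src e b := by
  ext σ ρ; simp only [src, of_apply, Matrix.sub_apply, Pi.sub_apply]; split_ifs <;> simp

lemma src_sum {α : Type*} (e : κ ↪ ι) (s : Finset α) (a : α → Cfg (sub e d) → ℂ) :
    src e (∑ i ∈ s, a i) = ∑ i ∈ s, src e (a i) := by
  ext σ ρ; simp only [src, of_apply, Matrix.sum_apply, Finset.sum_apply]; split_ifs <;> simp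

lemma src_av {W : Type} [Fintype W] (e : κ ↪ ι) (a : W → Cfg (sub e d) → ℂ) :
    (av fun w => src e (a w)) = src e (av a) := by
  ext σ ρ
  rw [av_apply]
  simp only [src, of_apply, av_apply']
  split_ifs
  · rfl
  · exact av_zero

lemma emb_vecMulVec (e : κ ↪ ι) (a a' : Cfg (sub e d) → ℂ) :
    emb e (vecMulVec a (star a')) = src e a * (src e a')ᴴ := by
  ext σ τ
  rw [emb_apply, src_mul_apply]
  simp only [src, conjTranspose_apply, of_apply, off_eq_iff, agree_comm (σ := τ), vecMulVec_apply,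
    Pi.star_apply]
  split_ifs <;> simp

lemma srcH_mul_src (e : κ ↪ ι) (a a' : Cfg (sub e d) → ℂ) :
    (src e a')ᴴ * src e a = (star a' ⬝ᵥ a) • (1 : Matrix _ _ ℂ) := by
  ext ρ ρ'
  rw [srcH_mul_apply]
  simp only [src, of_apply, off_symm, res_symm, Matrix.smul_apply, Matrix.one_apply, dotProduct,
    Pi.star_apply]
  split_ifs <;> simp

lemma norm_one_le {n : Type} [Fintype n] [DecidableEq n] : ‖(1 : Matrix n n ℂ)‖ ≤ 1 := by
  rw [← norm_ap, ap, map_one]; exact ContinuousLinearMap.norm_id_le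

lemma star_dot_self {n : Type} [Fintype n] (a : n → ℂ) : star a ⬝ᵥ a = (nsq a : ℂ) := by
  simp [dotProduct, nsq, Complex.conj_mul']

lemma norm_src_le (e : κ ↪ ι) {a : Cfg (sub e d) → ℂ} (h : nsq a ≤ 1) : ‖src e a‖ ≤ 1 := by
  have h1 := l2_opNorm_conjTranspose_mul_self (src e a)
  rw [srcH_mul_src, star_dot_self, norm_smul, Complex.norm_real,
    Real.norm_of_nonneg (nsq_nonneg _)] at h1
  have h2 := mul_le_one₀ h (norm_nonneg _) (norm_one_le (n := Rest (rg e) d))
  nlinarith [norm_nonneg (src e a)]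

lemma norm_srcH_le (e : κ ↪ ι) {a : Cfg (sub e d) → ℂ} (h : nsq a ≤ 1) : ‖(src e a)ᴴ‖ ≤ 1 := by
  rw [l2_opNorm_conjTranspose]; exact norm_src_le e h

/-- `|u⟩ ⊗ 1` -/
abbrev bs (e : κ ↪ ι) (u : Cfg (sub e d)) : Matrix (Cfg d) (Rest (rg e) d) ℂ :=
  src e (Pi.single u 1)

lemma nsq_single {n : Type} [Fintype n] [DecidableEq n] (u : n) :
    nsq (Pi.single u (1 : ℂ) : n → ℂ) = 1 := by
  simp [nsq, Pi.single_apply, apply_ite norm]

lemma bsH_mul_apply (e : κ ↪ ι) (u : Cfg (sub e d)) (X : Matrix (Cfg d) m ℂ)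
    (ρ : Rest (rg e) d) (j : m) : ((bs e u)ᴴ * X) ρ j = X (gl e u ρ) j := by
  rw [srcH_mul_apply]; simp [Pi.single_apply, apply_ite star]

lemma mul_bs_apply (e : κ ↪ ι) (u : Cfg (sub e d)) (X : Matrix m (Cfg d) ℂ)
    (j : m) (ρ : Rest (rg e) d) : (X * bs e u) j ρ = X j (gl e u ρ) := by
  rw [mul_src_apply]; simp [Pi.single_apply]

lemma bsH_mulVec (e : κ ↪ ι) (u : Cfg (sub e d)) (x : Cfg d → ℂ) (ρ : Rest (rg e) d) :
    ((bs e u)ᴴ *ᵥ x) ρ = x (gl e u ρ) :=
  bsH_mul_apply (m := Unit) e u (Matrix.of fun i _ => x i) ρ ()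

lemma sum_bs (e : κ ↪ ι) : ∑ u, bs (d := d) e u * (bs e u)ᴴ = 1 := by
  simp only [← emb_vecMulVec, ← map_sum]
  rw [← map_one (emb (d := d) e)]
  congr 1
  ext a b
  simp [Matrix.sum_apply, vecMulVec_apply, Pi.single_apply, one_apply]

lemma fro_sq_blocks (e : κ ↪ ι) (M : Op d) :
    fro M ^ 2 = ∑ u, ∑ u', fro ((bs (d := d) e u)ᴴ * M * bs (d := d) e u') ^ 2 := by
  simp only [fro_sq, mul_bs_apply, bsH_mul_apply]
  rw [sum_cfg e]
  refine sum_congr rfl fun u _ => ?_
  rw [sum_comm]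
  refine (sum_cfg e _).trans (sum_congr rfl fun u' _ => sum_comm)

lemma nsq_blocks (e : κ ↪ ι) (x : Cfg d → ℂ) : nsq x = ∑ u, nsq ((bs e u)ᴴ *ᵥ x) := by
  simp only [nsq, bsH_mulVec]; exact sum_cfg e _

/-- `1 ⊗ m` -/
def amp (e : κ ↪ ι) (M : Matrix (Rest (rg e) d) (Rest (rg e) d) ℂ) : Op d :=
  Matrix.of fun σ τ => if res e σ = res e τ then M (off (rg e) σ) (off (rg e) τ) else 0

lemma amp_mul_src (e : κ ↪ ι) (M : Matrix (Rest (rg e) d) (Rest (rg e) d) ℂ)
    (a : Cfg (sub e d) → ℂ) : amp e M * src e a = src e a * M := by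
  ext σ ρ
  rw [mul_src_apply, src_mul_apply]; simp [amp, mul_comm]

lemma srcH_mul_amp (e : κ ↪ ι) (M : Matrix (Rest (rg e) d) (Rest (rg e) d) ℂ)
    (a : Cfg (sub e d) → ℂ) : (src e a)ᴴ * amp e M = M * (src e a)ᴴ := by
  ext ρ σ
  rw [srcH_mul_apply, mul_srcH_apply]; simp [amp, mul_comm]

lemma supp_amp (e : κ ↪ ι) (M : Matrix (Rest (rg e) d) (Rest (rg e) d) ℂ) :
    Supp (rg e)ᶜ (amp e M) where
  zero σ τ h := by
    rw [amp, of_apply, if_neg]
    exact fun h1 => h fun x hx => res_eq_iff.1 h1 x (by simpa using hx)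
  dep σ τ σ' τ' h h' h1 h2 := by
    have e1 : res e σ = res e τ := res_eq_iff.2 fun x hx => h x (by simpa using hx)
    have e2 : res e σ' = res e τ' := res_eq_iff.2 fun x hx => h' x (by simpa using hx)
    have e3 : off (rg e) σ = off (rg e) σ' := off_eq_iff.2 fun x hx => h1 x (by simpa using hx)
    have e4 : off (rg e) τ = off (rg e) τ' := off_eq_iff.2 fun x hx => h2 x (by simpa using hx)
    simp only [amp, of_apply, e1, e2, e3, e4, if_true]

lemma supp_src_srcH (e : κ ↪ ι) (a a' : Cfg (sub e d) → ℂ) :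
    Supp (rg e) (src e a * (src e a')ᴴ) := by
  rw [← emb_vecMulVec]; exact supp_emb _ _

/-- compressing the registers of `e` out of an operator -/
lemma supp_amp_cmp [∀ x, Nonempty (d x)] (e : κ ↪ ι) {X : Finset ι} {M : Op d}
    (h : Supp (X ∪ rg e) M) (a b : Cfg (sub e d) → ℂ) :
    Supp X (amp e ((src e b)ᴴ * M * src e a)) := by
  have h1 : Supp (X ∪ rg e) (amp e ((src e b)ᴴ * M * src e a)) := by
    rw [← Matrix.mul_one (amp e _), ← sum_bs e, Matrix.mul_sum]
    refine Supp.sum fun v _ => ?_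
    have : amp e ((src e b)ᴴ * M * src e a) * (bs e v * (bs e v)ᴴ) =
        (bs e v * (src e b)ᴴ) * M * (src e a * (bs e v)ᴴ) := by
      rw [← Matrix.mul_assoc, amp_mul_src]; simp only [Matrix.mul_assoc]
    rw [this]
    exact (((supp_src_srcH e _ _).mono subset_union_right).mul h).mul
      ((supp_src_srcH e _ _).mono subset_union_right)
  refine (h1.inter (supp_amp e _)).mono fun x hx => ?_
  simp only [mem_inter, mem_union, mem_compl] at hx
  tauto

/-- a sampled source -/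
lemma appr_src {W : Type} [Fintype W] (e : κ ↪ ι) {b : W → Cfg (sub e d) → ℂ}
    {a : Cfg (sub e d) → ℂ} {η : ℝ} (hm : av b = a) (ha : nsq a ≤ 1)
    (hη : fro (av fun w => vecMulVec (b w - a) (star (b w - a))) ≤ η) :
    Appr (fun w => src e (b w)) (src e a) (1 + η) := by
  refine ⟨by rw [src_av, hm], norm_src_le e ha, by linarith [fro_nonneg _ |>.trans hη],
    fun Z => ?_⟩
  rw [add_sub_cancel_left]
  refine le_trans (le_of_eq ?_) (mul_le_mul_of_nonneg_right hη (fro_nonneg _))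
  refine (pow_left_inj₀ (fro_nonneg _) (mul_nonneg (fro_nonneg _) (fro_nonneg _))
    two_ne_zero).1 ?_
  have h1 : ∀ σ τ, (av fun w => (src e (b w) - src e a) * Z * (src e (b w) - src e a)ᴴ) σ τ =
      (av fun w => vecMulVec (b w - a) (star (b w - a))) (res e σ) (res e τ) *
        Z (off (rg e) σ) (off (rg e) τ) := by
    intro σ τ
    simp only [av_apply, ← src_sub, mul_srcH_apply, src_mul_apply, av_cmul, vecMulVec_apply,
      Pi.star_apply]
    congr 1; funext w; ring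
  rw [mul_pow, fro_sq_blocks e, fro_sq, fro_sq, sum_mul]
  refine sum_congr rfl fun u _ => ?_
  rw [sum_mul]
  refine sum_congr rfl fun u' _ => ?_
  simp only [fro_sq, mul_bs_apply, bsH_mul_apply, h1, res_symm, off_symm, norm_mul, mul_pow,
    mul_sum]

/-- partial trace over the registers of `e` -/
noncomputable def pt (e : κ ↪ ι) (ρ : Op d) : Matrix (Rest (rg e) d) (Rest (rg e) d) ℂ :=
  ∑ s, (bs (d := d) e s)ᴴ * ρ * bs (d := d) e s

lemma pt_apply (e : κ ↪ ι) (ρ : Op d) (j j' : Rest (rg e) d) :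
    pt e ρ j j' = ∑ s, ρ (gl e s j) (gl e s j') := by
  simp only [pt, Matrix.sum_apply, mul_bs_apply, bsH_mul_apply]

end Crest.Agent.N336.CL
end

-- ▼ part N336/P/CL/Node
section

/-!
# Row 336, compression lemma (helper52): random product approximation of a bipartite vector
-/

set_option autoImplicit false
set_option linter.unusedSectionVars false

open Matrix Finset
open scoped ComplexOrder MatrixOrder Matrix.Norms.L2Operator InnerProductSpace

namespace Crest.Agent.N336.CL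

open Q

/-! ### random phases -/

/-- fourth roots of unity -/
noncomputable def ph (x : ZMod 4) : ℂ := Complex.I ^ x.val

lemma ph_add_one (x : ZMod 4) : ph (x + 1) = Complex.I * ph x := by
  have h : (x + 1).val = (x.val + 1) % 4 := by rw [ZMod.val_add]; rfl
  rw [ph, ph, h, ← pow_eq_pow_mod _ Complex.I_pow_four, pow_succ, mul_comm]

lemma ph_mul_star (x : ZMod 4) : ph x * star (ph x) = 1 := by
  rw [ph, star_pow, ← mul_pow]; simp

section ph

variable {ι : Type} [Fintype ι] [DecidableEq ι]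

lemma ph_shift (g : ι → ZMod 4) (m i : ι) :
    ph ((g + Pi.single m 1 : ι → ZMod 4) i) = (if i = m then Complex.I else 1) * ph (g i) := by
  by_cases h : i = m
  · subst h; simp [ph_add_one]
  · simp [h]

lemma av_eq_zero_of_shift (f : (ι → ZMod 4) → ℂ) (m : ι) {c : ℂ} (hc : c ≠ 1)
    (h : ∀ g, f (g + Pi.single m 1) = c * f g) : av f = 0 := by
  have h1 := av_equiv (Equiv.addRight (Pi.single m 1 : ι → ZMod 4)) f
  simp only [Equiv.coe_addRight, h, ← cmul_av] at h1
  have h2 : (c - 1) * av f = 0 := by rw [sub_mul, one_mul]; exact sub_eq_zero.2 h1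
  exact (mul_eq_zero.1 h2).resolve_left (sub_ne_zero.2 hc)

/-- the monomial `g_i conj g_j` -/
noncomputable def mon (g : ι → ZMod 4) (i j : ι) : ℂ := ph (g i) * star (ph (g j))

lemma mon_self (g : ι → ZMod 4) (i : ι) : mon g i i = 1 := ph_mul_star _

lemma I_ne_one : Complex.I ≠ 1 := fun h => by simpa using congrArg Complex.im h

lemma av_mon {i j : ι} (h : i ≠ j) : (av fun g => mon g i j) = 0 :=
  av_eq_zero_of_shift _ i I_ne_one fun g => by
    simp only [mon, ph_shift, if_true, if_neg h.symm, one_mul, mul_assoc]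

lemma av_mon_mon {i j i' j' : ι} (h : i ≠ j) (h' : i' ≠ j') :
    (av fun g => mon g i j * star (mon g i' j')) = if i = i' ∧ j = j' then 1 else 0 := by
  split_ifs with h1
  · obtain ⟨rfl, rfl⟩ := h1
    have : ∀ g : ι → ZMod 4, mon g i j * star (mon g i j) = 1 := fun g => by
      have e1 := ph_mul_star (g i)
      have e2 := ph_mul_star (g j)
      simp only [mon, star_mul', star_star]
      linear_combination (ph (g j) * star (ph (g j))) * e1 + e2
    simp only [this, av_const]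
  · by_cases h2 : i = i'
    · subst h2
      have h3 : j ≠ j' := fun h3 => h1 ⟨rfl, h3⟩
      refine av_eq_zero_of_shift _ j' I_ne_one fun g => ?_
      simp only [mon, ph_shift, if_true, if_neg h', if_neg h3, one_mul, star_mul', star_star]
      ring
    · by_cases h3 : j' = i
      · subst h3
        refine av_eq_zero_of_shift _ j' (c := -1) (by norm_num) fun g => ?_
        simp only [mon, ph_shift, if_true, if_neg h', if_neg h.symm, one_mul, star_mul',
          star_star]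
        linear_combination (ph (g j') * star (ph (g j)) * star (ph (g i')) * ph (g j')) *
          Complex.I_mul_I
      · refine av_eq_zero_of_shift _ i I_ne_one fun g => ?_
        simp only [mon, ph_shift, if_true, if_neg h.symm, if_neg (Ne.symm h2), if_neg h3,
          one_mul, star_mul', star_star]
        ring

end ph

variable {α β γ : Type} [Fintype α] [Fintype β] [Fintype γ]

lemma av_orth {W T : Type} [Fintype W] [DecidableEq T] (s : Finset T) (c : W → T → ℂ)
    (v : T → γ → ℂ)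
    (h : ∀ t ∈ s, ∀ t' ∈ s, (av fun w => c w t * star (c w t')) = if t = t' then 1 else 0) :
    (av fun w => vecMulVec (∑ t ∈ s, c w t • v t) (star (∑ t ∈ s, c w t • v t))) =
      ∑ t ∈ s, vecMulVec (v t) (star (v t)) := by
  ext y y'
  have h1 : ∀ w, vecMulVec (∑ t ∈ s, c w t • v t) (star (∑ t ∈ s, c w t • v t)) y y' =
      ∑ t ∈ s, ∑ t' ∈ s, c w t * star (c w t') * (v t y * star (v t' y')) := fun w => by
    simp only [vecMulVec_apply, Pi.star_apply, Finset.sum_apply, Pi.smul_apply, smul_eq_mul,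
      star_sum, star_mul', sum_mul_sum]
    exact sum_congr rfl fun t _ => sum_congr rfl fun t' _ => by ring
  simp only [av_apply, h1, av_sum, ← av_cmul, Matrix.sum_apply, vecMulVec_apply, Pi.star_apply]
  refine sum_congr rfl fun t ht => ?_
  rw [sum_congr rfl fun t' ht' => by rw [h t ht t' ht']]
  simp [ht]

lemma fro_mul_conjTranspose (A : Matrix α β ℂ) : fro (A * Aᴴ) = fro (Aᴴ * A) := by
  refine (pow_left_inj₀ (fro_nonneg _) (fro_nonneg _) two_ne_zero).1 ?_
  simp only [fro_sq_eq_trace, conjTranspose_mul, conjTranspose_conjTranspose, Matrix.mul_assoc]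
  rw [trace_mul_comm]; simp only [Matrix.mul_assoc]

/-- factorisation through the Schatten-4 unit balls -/
lemma exists_fact [DecidableEq β] (M : Matrix α β ℂ) (h : fro M ≤ 1) :
    ∃ (A : Matrix α β ℂ) (B : Matrix β β ℂ), M = A * B ∧ fro (A * Aᴴ) ≤ 1 ∧ fro (Bᴴ * B) ≤ 1 := by
  have hH : (Mᴴ * M).PosSemidef := posSemidef_conjTranspose_mul_self M
  set H := Mᴴ * M with hHd
  have key : fro (fr (fun x => √x) H) ≤ 1 := by
    refine fro_le_of_sq zero_le_one (le_trans (le_of_eq ?_) (pow_le_pow_left₀ (fro_nonneg _) h 2))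
    rw [fro_sq_eq_trace, fro_sq_eq_trace, (fr_isHermitian _ _).eq, fc_mul, ← hHd]
    conv_rhs => rw [← fc_id hH.1]
    congr 2
    exact fc_congr fun i => by rw [← Complex.ofReal_mul, Real.mul_self_sqrt (ev_nonneg hH i)]
  refine ⟨M * fr (fun x => (√(√x))⁻¹) H, fr (fun x => √(√x)) H, ?_, ?_, ?_⟩
  · rw [Matrix.mul_assoc, fc_mul, ← sub_eq_zero]
    conv_lhs => lhs; rw [← Matrix.mul_one M, ← fc_one H]
    rw [← Matrix.mul_sub, fc_sub, ← conjTranspose_mul_self_eq_zero, conjTranspose_mul,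
      Matrix.mul_assoc, ← Matrix.mul_assoc Mᴴ, ← hHd, fc_conjTranspose]
    conv_lhs => rhs; lhs; rw [← fc_id hH.1]
    rw [fc_mul, fc_mul, ← fc_zero H]
    refine fc_congr fun i => ?_
    rcases (ev_nonneg hH i).eq_or_lt with h0 | h0
    · simp [← h0]
    · have : √(√(ev H i)) ≠ 0 := by positivity
      rw [← Complex.ofReal_mul, inv_mul_cancel₀ this]; simp
  · rw [fro_mul_conjTranspose, conjTranspose_mul, (fr_isHermitian _ _).eq, Matrix.mul_assoc,
      ← Matrix.mul_assoc Mᴴ, ← hHd]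
    conv_lhs => rhs; rhs; lhs; rw [← fc_id hH.1]
    rw [fc_mul, fc_mul]
    refine le_trans (le_of_eq (congrArg fro (fc_congr fun i => ?_))) key
    rcases (ev_nonneg hH i).eq_or_lt with h0 | h0
    · simp [← h0]
    · have h1 : √(√(ev H i)) ≠ 0 := by positivity
      have h2 := Real.mul_self_sqrt (Real.sqrt_nonneg (ev H i))
      have h3 := Real.mul_self_sqrt h0.le
      rw [← Complex.ofReal_mul, ← Complex.ofReal_mul, Complex.ofReal_inj]
      field_simp
      rw [sq, h2, h3]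
  · rw [(fr_isHermitian _ _).eq, fc_mul]
    refine le_trans (le_of_eq (congrArg fro (fc_congr fun i => ?_))) key
    rw [← Complex.ofReal_mul, Real.mul_self_sqrt (Real.sqrt_nonneg _)]

lemma fro_kron (e : γ ≃ α × β) (X : Matrix α α ℂ) (Y : Matrix β β ℂ) :
    fro (Matrix.of fun y y' => X (e y).1 (e y').1 * Y (e y').2 (e y).2) = fro X * fro Y := by
  refine (pow_left_inj₀ (fro_nonneg _) (mul_nonneg (fro_nonneg _) (fro_nonneg _))
    two_ne_zero).1 ?_
  rw [mul_pow, fro_sq, fro_sq, fro_sq, ← Equiv.sum_comp e.symm, Fintype.sum_prod_type, sum_mul]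
  refine sum_congr rfl fun x _ => ?_
  simp only [← Equiv.sum_comp e.symm, Fintype.sum_prod_type, of_apply, Equiv.apply_symm_apply,
    norm_mul, mul_pow]
  rw [sum_comm, sum_mul]
  refine sum_congr rfl fun x' _ => ?_
  rw [sum_comm, mul_sum]
  exact sum_congr rfl fun y _ => (mul_sum _ _ _).symm

/-- a bipartite vector is the mean of a sum of `k` random product vectors, variance `1/k` -/
theorem node_core [DecidableEq γ] (e : γ ≃ α × β) (a : γ → ℂ) (ha : nsq a ≤ 1) {k : ℕ}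
    (hk : 1 ≤ k) : ∃ (W : Type) (_ : Fintype W) (_ : Nonempty W) (f : W → Fin k → α → ℂ)
      (g : W → Fin k → β → ℂ) (b : W → γ → ℂ),
      (∀ w, b w = ∑ j, fun y => f w j (e y).1 * g w j (e y).2) ∧ av b = a ∧
      fro (av fun w => vecMulVec (b w - a) (star (b w - a))) ≤ 1 / k := by
  classical
  have hk0 : (k : ℂ) ≠ 0 := by exact_mod_cast (by omega : k ≠ 0)
  have hk1 : (0 : ℝ) < k := by exact_mod_cast hk
  obtain ⟨A, B, hM, hA, hB⟩ := exists_fact (Matrix.of fun x y => a (e.symm (x, y))) (by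
    refine fro_le_of_sq zero_le_one (le_trans (le_of_eq ?_) (ha.trans_eq (one_pow 2).symm))
    rw [fro_sq, nsq, ← Equiv.sum_comp e.symm, Fintype.sum_prod_type]; rfl)
  let v : Fin k × β × β → γ → ℂ := fun t y => (k : ℂ)⁻¹ * (A (e y).1 t.2.1 * B t.2.2 (e y).2)
  let c : (Fin k × β → ZMod 4) → Fin k × β × β → ℂ := fun w t => mon w (t.1, t.2.1) (t.1, t.2.2)
  let s : Finset (Fin k × β × β) := univ.filter fun t => t.2.1 ≠ t.2.2
  have hd : ∀ w, (∑ t, c w t • v t) - a = ∑ t ∈ s, c w t • v t := fun w => by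
    rw [sub_eq_iff_eq_add, ← sum_filter_add_sum_filter_not univ fun t => t.2.1 ≠ t.2.2]
    congr 1
    funext y
    have h1 : a y = ∑ i, A (e y).1 i * B i (e y).2 := by
      have := congrFun (congrFun hM (e y).1) (e y).2
      simpa [mul_apply] using this
    simp only [ne_eq, not_not, sum_filter, Fintype.sum_prod_type, sum_ite_eq, mem_univ, if_true,
      Finset.sum_apply, Pi.smul_apply, smul_eq_mul, c, v, mon_self, one_mul, ← mul_sum, ← h1,
      sum_const, card_univ, Fintype.card_fin, nsmul_eq_mul]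
    field_simp
  refine ⟨Fin k × β → ZMod 4, inferInstance, inferInstance,
    fun w j x => (k : ℂ)⁻¹ * ∑ i, A x i * ph (w (j, i)),
    fun w j y => ∑ i, star (ph (w (j, i))) * B i y, fun w => ∑ t, c w t • v t, fun w => ?_, ?_, ?_⟩
  · funext y
    simp only [Finset.sum_apply, Pi.smul_apply, smul_eq_mul, Fintype.sum_prod_type, c, v, mon]
    refine sum_congr rfl fun j _ => ?_
    rw [mul_assoc, sum_mul_sum, mul_sum]
    refine sum_congr rfl fun i _ => ?_
    rw [mul_sum]
    exact sum_congr rfl fun i' _ => by ring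
  · have h1 : (av fun w => (∑ t, c w t • v t) - a) = 0 := by
      simp only [hd, av_sum]
      refine sum_eq_zero fun t ht => funext fun y => ?_
      have h2 : (t.1, t.2.1) ≠ (t.1, t.2.2) := fun h => (mem_filter.1 ht).2 (Prod.mk.inj h).2
      simp only [av_apply', Pi.smul_apply, smul_eq_mul, ← av_cmul, c, av_mon h2, zero_mul,
        Pi.zero_apply]
    rwa [av_sub, av_const, sub_eq_zero] at h1
  · simp only [hd]
    rw [av_orth s c v fun t ht t' ht' => ?_]
    · have h1 : ∑ t, vecMulVec (v t) (star (v t)) = (k : ℝ)⁻¹ • Matrix.of fun y y' =>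
          (A * Aᴴ) (e y).1 (e y').1 * (Bᴴ * B) (e y').2 (e y).2 := by
        ext y y'
        simp only [Matrix.sum_apply, vecMulVec_apply, Pi.star_apply, v, Fintype.sum_prod_type,
          sum_const, card_univ, Fintype.card_fin, nsmul_eq_mul, Matrix.smul_apply, of_apply,
          mul_apply, conjTranspose_apply, Complex.real_smul, star_mul',
          star_inv₀, star_natCast, Complex.ofReal_inv, Complex.ofReal_natCast]
        rw [sum_mul_sum, mul_sum, mul_sum]
        refine sum_congr rfl fun i _ => ?_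
        rw [mul_sum, mul_sum]
        refine sum_congr rfl fun i' _ => ?_
        field_simp
      have h2 : ∀ u : Finset (Fin k × β × β), (∑ t ∈ u, vecMulVec (v t) (star (v t))).PosSemidef :=
        fun u => posSemidef_sum _ fun t _ => posSemidef_vecMulVec_self_star _
      refine (fro_mono (Y := ∑ t, vecMulVec (v t) (star (v t))) (h2 s) ?_).trans ?_
      · rw [Matrix.le_iff, ← sum_sdiff (subset_univ s), add_sub_cancel_right]; exact h2 _
      · rw [h1, fro_smul, fro_kron, abs_of_nonneg (by positivity), one_div]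
        exact mul_le_of_le_one_right (by positivity) (mul_le_one₀ hA (fro_nonneg _) hB)
    · have h2 : (t.1, t.2.1) ≠ (t.1, t.2.2) := fun h => (mem_filter.1 ht).2 (Prod.mk.inj h).2
      have h3 : (t'.1, t'.2.1) ≠ (t'.1, t'.2.2) := fun h => (mem_filter.1 ht').2 (Prod.mk.inj h).2
      simp only [c, av_mon_mon h2 h3]
      refine if_congr ?_ rfl rfl
      simp only [Prod.ext_iff]; tauto

end Crest.Agent.N336.CL
end

-- ▼ part N336/P/CL/Inv

/-!
# Row 336, compression lemma (helper52): the invariant `U N ρ c`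

`U N ρ c`: every trace non-increasing completely positive map on the registers `N` (with an
output ancilla) sends `ρ` to a matrix of Frobenius norm at most `c`.
-/

set_option autoImplicit false
set_option linter.unusedSectionVars false

open Matrix Finset
open scoped ComplexOrder MatrixOrder Matrix.Norms.L2Operator InnerProductSpace

namespace Crest.Agent.N336.CL

open Q

variable {ι κ : Type} [Fintype ι] [DecidableEq ι] [Fintype κ] [DecidableEq κ]
  {d : ι → Type} [∀ x, Fintype (d x)] [∀ x, DecidableEq (d x)]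

section big

variable {J F : Type} [Fintype J] [Fintype F]

/-- stack a family of operators -/
def stk (V : F → Op d) : Matrix (F × Cfg d) (Cfg d) ℂ := Matrix.of fun x τ => V x.1 x.2 τ

/-- output of the map with Kraus operators `V` -/
noncomputable def big (V : J → F → Op d) (ρ : Op d) : Matrix (F × Cfg d) (F × Cfg d) ℂ :=
  ∑ i, stk (V i) * ρ * (stk (V i))ᴴ

lemma fro_big_sq (V : J → F → Op d) (ρ : Op d) :
    fro (big V ρ) ^ 2 = ∑ f, ∑ f', fro (∑ i, V i f * ρ * (V i f')ᴴ) ^ 2 := by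
  simp only [fro_sq, Fintype.sum_prod_type]
  refine sum_congr rfl fun f _ => ?_
  rw [sum_comm]
  refine sum_congr rfl fun f' _ => sum_congr rfl fun σ _ => sum_congr rfl fun τ _ => ?_
  simp [big, stk, Matrix.sum_apply, mul_apply]

end big

/-- the invariant -/
def U (N : Finset ι) (ρ : Op d) (c : ℝ) : Prop :=
  ∀ (J F : Type) [Fintype J] [Fintype F] (V : J → F → Op d), (∀ i f, Supp N (V i f)) →
    (∀ x, ∑ i, ∑ f, nsq (V i f *ᵥ x) ≤ nsq x) → fro (big V ρ) ≤ c

variable {N N' : Finset ι} {ρ ρ' : Op d} {c c' : ℝ}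

lemma U.nonneg (h : U N ρ c) : 0 ≤ c :=
  (fro_nonneg _).trans (h Empty Empty (fun i => i.elim) (fun i => i.elim) fun x => by
    simpa using nsq_nonneg x)

lemma U.mono (h : U N ρ c) (hc : c ≤ c') : U N ρ c' :=
  fun J F _ _ V h1 h2 => (h J F V h1 h2).trans hc

lemma U.subset (h : U N ρ c) (hN : N' ⊆ N) : U N' ρ c :=
  fun J F _ _ V h1 h2 => h J F V (fun i f => (h1 i f).mono hN) h2

lemma U.base (N : Finset ι) {x : Cfg d → ℂ} (hx : nsq x ≤ 1) : U N (vecMulVec x (star x)) 1 := by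
  intro J F _ _ V _ h2
  refine (fro_sum_le _ _).trans (le_trans (le_of_eq ?_) ((h2 x).trans hx))
  refine sum_congr rfl fun i _ => ?_
  rw [mul_vecMulVec, vecMulVec_mul, ← star_mulVec, fro_vecMulVec, nsq, Fintype.sum_prod_type]
  rfl

lemma U.le (h : U N ρ' c) (h0 : ρ.PosSemidef) (hρ : ρ ≤ ρ') : U N ρ c := by
  classical
  intro J F _ _ V h1 h2
  refine (fro_mono (posSemidef_sum _ fun i _ => h0.mul_mul_conjTranspose_same _) ?_).trans
    (h J F V h1 h2)
  rw [Matrix.le_iff, big, ← sum_sub_distrib]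
  refine posSemidef_sum _ fun i _ => ?_
  rw [← Matrix.sub_mul, ← Matrix.mul_sub]
  exact (Matrix.le_iff.1 hρ).mul_mul_conjTranspose_same _

lemma U.sum {α : Type*} {s : Finset α} {ρ : α → Op d} {c : α → ℝ}
    (h : ∀ a ∈ s, U N (ρ a) (c a)) : U N (∑ a ∈ s, ρ a) (∑ a ∈ s, c a) := by
  intro J F _ _ V h1 h2
  have : big V (∑ a ∈ s, ρ a) = ∑ a ∈ s, big V (ρ a) := by
    simp only [big, Matrix.mul_sum, Matrix.sum_mul]; rw [sum_comm]
  rw [this]
  exact (fro_sum_le _ _).trans (sum_le_sum fun a ha => h a ha J F V h1 h2)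

lemma U.smul (h : U N ρ c) {r : ℝ} (hr : 0 ≤ r) : U N (r • ρ) (r * c) := by
  intro J F _ _ V h1 h2
  have : big V (r • ρ) = r • big V ρ := by
    simp only [big, Matrix.mul_smul, Matrix.smul_mul, smul_sum]
  rw [this, fro_smul, abs_of_nonneg hr]
  exact mul_le_mul_of_nonneg_left (h J F V h1 h2) hr

lemma U.inside (h : U N ρ c) {T : Op d} (hT : Supp N T) (h1 : ‖T‖ ≤ 1) :
    U N (T * ρ * Tᴴ) c := by
  intro J F _ _ V hV hn
  have h2 := h J F (fun i f => V i f * T) (fun i f => (hV i f).mul hT) fun x => by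
    simp only [← mulVec_mulVec]; exact (hn _).trans (nsq_mulVec_le h1 x)
  refine fro_le_of_sq h.nonneg (le_trans (le_of_eq ?_) (pow_le_pow_left₀ (fro_nonneg _) h2 2))
  simp only [fro_big_sq, conjTranspose_mul, Matrix.mul_assoc]

lemma U.outside (h : U N ρ c) {W : Type} [Fintype W] {K : W → Op d} {δ : ℝ}
    (hK : ∀ w, Supp Nᶜ (K w)) (hδ : HSB δ K) :
    U N (av fun w => K w * ρ * (K w)ᴴ) (δ * c) := by
  intro J F _ _ V hV hn
  have h2 := pow_le_pow_left₀ (fro_nonneg _) (h J F V hV hn) 2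
  refine fro_le_of_sq (mul_nonneg hδ.1 h.nonneg) ?_
  rw [mul_pow]
  refine le_trans ?_ (mul_le_mul_of_nonneg_left h2 (sq_nonneg _))
  simp only [fro_big_sq, mul_sum]
  refine sum_le_sum fun f _ => sum_le_sum fun f' _ => ?_
  rw [← mul_pow]
  refine pow_le_pow_left₀ (fro_nonneg _) (le_trans (le_of_eq ?_) (hδ.2 _)) 2
  congr 1
  simp only [mul_av, av_mul, ← av_sum, Matrix.mul_sum, Matrix.sum_mul]
  congr 1; funext w
  refine sum_congr rfl fun i _ => ?_
  have e1 := ((hV i f).commute (hK w) disjoint_compl_right).eq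
  have e2 := congrArg conjTranspose ((hV i f').commute (hK w) disjoint_compl_right).eq
  simp only [conjTranspose_mul] at e2
  calc V i f * (K w * ρ * (K w)ᴴ) * (V i f')ᴴ
      = (V i f * K w) * ρ * ((K w)ᴴ * (V i f')ᴴ) := by simp only [Matrix.mul_assoc]
    _ = _ := by rw [e1, e2]; simp only [Matrix.mul_assoc]

lemma U.outside' (h : U N ρ c) {T : Op d} (hT : Supp Nᶜ T) (h1 : ‖T‖ ≤ 1) :
    U N (T * ρ * Tᴴ) c := by
  have := h.outside (W := Unit) (K := fun _ => T) (fun _ => hT) (Appr.const h1).hsb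
  rwa [av_const, one_mul] at this

/-- `⟨u| M |a⟩ ⊗ 1` -/
noncomputable def cmp (e : κ ↪ ι) (u : Cfg (sub e d)) (M : Op d) (a : Cfg (sub e d) → ℂ) : Op d :=
  amp e ((bs e u)ᴴ * M * src e a)

lemma srcH_mul_cmp (e : κ ↪ ι) (u : Cfg (sub e d)) (M : Op d) (a a' : Cfg (sub e d) → ℂ) :
    (src e a')ᴴ * cmp e u M a = (bs e u)ᴴ * M * src e a * (src e a')ᴴ := srcH_mul_amp _ _ _

lemma nsq_cmp (e : κ ↪ ι) (M : Op d) (a : Cfg (sub e d) → ℂ) (x : Cfg d → ℂ) :
    ∑ u : Cfg (sub e d), nsq (cmp e u M a *ᵥ x) =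
      ∑ v : Cfg (sub e d), nsq (M *ᵥ (src e a *ᵥ ((bs e v)ᴴ *ᵥ x))) := by
  have h1 : ∀ u : Cfg (sub e d), nsq (cmp e u M a *ᵥ x) =
      ∑ v : Cfg (sub e d), nsq ((bs e u)ᴴ *ᵥ (M *ᵥ (src e a *ᵥ ((bs e v)ᴴ *ᵥ x)))) := fun u => by
    rw [nsq_blocks e]
    refine sum_congr rfl fun v _ => ?_
    rw [mulVec_mulVec, srcH_mul_cmp, ← mulVec_mulVec, ← mulVec_mulVec, ← mulVec_mulVec]
  rw [sum_congr rfl fun u _ => h1 u, sum_comm]
  exact sum_congr rfl fun v _ => (nsq_blocks e _).symm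

lemma blk_cmp (e : κ ↪ ι) (M M' ρ : Op d) (a a' : Cfg (sub e d) → ℂ) (u u' : Cfg (sub e d)) :
    (bs e u)ᴴ * (M * (src e a * (src e a')ᴴ * ρ * (src e a * (src e a')ᴴ)ᴴ) * M'ᴴ) * bs e u' =
      (src e a')ᴴ * (cmp e u M a * ρ * (cmp e u' M' a)ᴴ) * (src e a')ᴴᴴ := by
  have e1 := srcH_mul_cmp e u M a a'
  have e2 := congrArg conjTranspose (srcH_mul_cmp e u' M' a a')
  simp only [conjTranspose_mul, conjTranspose_conjTranspose] at e2
  calc _ = ((bs e u)ᴴ * M * src e a * (src e a')ᴴ) * ρ *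
        (src e a' * ((src e a)ᴴ * (M'ᴴ * bs e u'))) := by
        simp only [conjTranspose_mul, conjTranspose_conjTranspose, Matrix.mul_assoc]
    _ = _ := by
        rw [← e1, ← e2]; simp only [conjTranspose_conjTranspose, Matrix.mul_assoc]

lemma fro_cmp {J : Type} [Fintype J] (e : κ ↪ ι) (M M' : J → Op d) (ρ : Op d)
    {a a' : Cfg (sub e d) → ℂ} (ha' : nsq a' ≤ 1) :
    fro (∑ i, M i * (src e a * (src e a')ᴴ * ρ * (src e a * (src e a')ᴴ)ᴴ) * (M' i)ᴴ) ^ 2 ≤
      ∑ u : Cfg (sub e d), ∑ u' : Cfg (sub e d),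
        fro (∑ i, cmp e u (M i) a * ρ * (cmp e u' (M' i) a)ᴴ) ^ 2 := by
  rw [fro_sq_blocks e]
  refine sum_le_sum fun u _ => sum_le_sum fun u' _ => ?_
  refine pow_le_pow_left₀ (fro_nonneg _) (le_trans (le_of_eq ?_)
    (fro_conj_le (norm_srcH_le e ha') _)) 2
  refine congrArg fro ?_
  rw [Matrix.mul_sum, Matrix.sum_mul, Matrix.mul_sum, Matrix.sum_mul]
  exact sum_congr rfl fun i _ => blk_cmp e _ _ _ _ _ _ _

lemma U.rank [∀ x, Nonempty (d x)] (h : U N ρ c) (e : κ ↪ ι) {a a' : Cfg (sub e d) → ℂ}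
    (ha : nsq a ≤ 1) (ha' : nsq a' ≤ 1) :
    U (N ∪ rg e) (src e a * (src e a')ᴴ * ρ * (src e a * (src e a')ᴴ)ᴴ) c := by
  intro J F _ _ V hV hn
  have h2 := h J (F × Cfg (sub e d)) (fun i f => cmp e f.2 (V i f.1) a)
    (fun i f => supp_amp_cmp e (hV i f.1) _ _) fun x => by
      calc ∑ i, ∑ f : F × Cfg (sub e d), nsq (cmp e f.2 (V i f.1) a *ᵥ x)
          = ∑ v : Cfg (sub e d), ∑ i, ∑ f, nsq (V i f *ᵥ (src e a *ᵥ ((bs e v)ᴴ *ᵥ x))) := by
            refine Eq.trans (sum_congr rfl fun i _ => ?_) sum_comm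
            rw [Fintype.sum_prod_type]
            exact (sum_congr rfl fun f _ => nsq_cmp e (V i f) a x).trans sum_comm
        _ ≤ ∑ v : Cfg (sub e d), nsq ((bs e v)ᴴ *ᵥ x) :=
            sum_le_sum fun v _ => (hn _).trans (nsq_mulVec_le (norm_src_le e ha) _)
        _ = nsq x := (nsq_blocks e x).symm
  refine fro_le_of_sq h.nonneg (le_trans ?_ (pow_le_pow_left₀ (fro_nonneg _) h2 2))
  rw [fro_big_sq, fro_big_sq, Fintype.sum_prod_type]
  refine sum_le_sum fun f _ => ?_
  refine (sum_le_sum fun f' _ => fro_cmp e _ _ ρ ha').trans (le_of_eq ?_)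
  rw [sum_comm]
  exact sum_congr rfl fun u _ => (Fintype.sum_prod_type (f := fun f' : F × Cfg (sub e d) =>
    fro (∑ i, cmp e u (V i f) a * ρ * (cmp e f'.2 (V i f'.1) a)ᴴ) ^ 2)).symm

lemma U.pt [∀ x, Nonempty (d x)] {e : κ ↪ ι} (h : U (rg e) ρ c) : fro (pt e ρ) ≤ c := by
  obtain ⟨s₀⟩ : Nonempty (Cfg (sub e d)) := inferInstance
  have h1 : (bs (d := d) e s₀)ᴴ * bs e s₀ = 1 := by
    rw [srcH_mul_src, star_dot_self, nsq_single]; simp
  have h2 := h (Cfg (sub e d)) Unit (fun s _ => bs e s₀ * (bs e s)ᴴ)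
    (fun s _ => supp_src_srcH e _ _) fun x => by
      rw [nsq_blocks e x]
      refine sum_le_sum fun s _ => ?_
      rw [Fintype.sum_unique, ← mulVec_mulVec]
      exact nsq_mulVec_le (norm_src_le e (nsq_single _).le) _
  refine fro_le_of_sq h.nonneg (le_trans ?_ (pow_le_pow_left₀ (fro_nonneg _) h2 2))
  rw [fro_big_sq, Fintype.sum_unique, Fintype.sum_unique]
  refine pow_le_pow_left₀ (fro_nonneg _) (le_trans (le_of_eq ?_)
    (fro_conj_le (norm_srcH_le e (nsq_single s₀).le) _)) 2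
  congr 1
  simp only [CL.pt, Matrix.mul_sum, Matrix.sum_mul]
  refine sum_congr rfl fun s _ => ?_
  calc _ = ((bs e s₀)ᴴ * bs e s₀) * ((bs e s)ᴴ * ρ * bs e s) * ((bs e s₀)ᴴ * bs e s₀) := by
        rw [h1, Matrix.one_mul, Matrix.mul_one]
    _ = _ := by simp only [conjTranspose_mul, conjTranspose_conjTranspose, Matrix.mul_assoc]

lemma U.pt' [∀ x, Nonempty (d x)] {e : κ ↪ ι} (h : U N ρ c) {A : Finset ι} (hA : A ⊆ rg e)
    (hN : rg e ⊆ N ∪ A) : fro (CL.pt e ρ) ≤ dim d A * c := by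
  have h1 : CL.pt e ρ = ∑ b : Cfg (sub (sb A) d), CL.pt e (bs (sb A) b * (bs (sb A) b)ᴴ * ρ *
      (bs (sb A) b * (bs (sb A) b)ᴴ)ᴴ) := by
    ext j j'
    simp only [Matrix.sum_apply, pt_apply]
    rw [sum_comm]
    refine sum_congr rfl fun s _ => ?_
    have h2 : res (sb A) (gl e s j') = res (sb A) (gl e s j) := by
      funext x
      obtain ⟨k, hk⟩ := mem_rg.1 (hA x.2)
      have h3 : ∀ y, e k = y → gl e s j' y = gl e s j y := by
        rintro _ rfl; rw [gl_in, gl_in]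
      exact h3 _ hk
    have h4 : ∀ b : Cfg (sub (sb A) d), bs (sb A) b * (bs (sb A) b)ᴴ * ρ *
        (bs (sb A) b * (bs (sb A) b)ᴴ)ᴴ =
        bs (sb A) b * ((bs (sb A) b)ᴴ * ρ * bs (sb A) b) * (bs (sb A) b)ᴴ := fun b => by
      simp only [conjTranspose_mul, conjTranspose_conjTranspose, Matrix.mul_assoc]
    have h5 : ∀ b : Cfg (sub (sb A) d), (bs (sb A) b * (bs (sb A) b)ᴴ * ρ *
        (bs (sb A) b * (bs (sb A) b)ᴴ)ᴴ) (gl e s j) (gl e s j') =
        if res (sb A) (gl e s j) = b then ρ (gl e s j) (gl e s j') else 0 := fun b => by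
      rw [h4, mul_srcH_apply, src_mul_apply, mul_bs_apply, bsH_mul_apply, h2, Pi.single_apply]
      split_ifs with h6
      · subst h6
        rw [gl_res_off, ← h2, gl_res_off, one_mul, star_one, mul_one]
      · rw [zero_mul, zero_mul]
    rw [sum_congr rfl fun b _ => h5 b, sum_ite_eq, if_pos (mem_univ _)]
  rw [h1, ← card_sub_sb, ← card_univ, ← nsmul_eq_mul, ← sum_const]
  refine (fro_sum_le _ _).trans (sum_le_sum fun b _ => U.pt ?_)
  exact (h.rank (sb A) (nsq_single b).le (nsq_single b).le).subset (by rwa [rg_sb])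

lemma conj_sum_le {n α : Type} [Fintype n] [DecidableEq n] [Fintype α] {ρ : Matrix n n ℂ}
    (h : ρ.PosSemidef) (T : α → Matrix n n ℂ) :
    (∑ a, T a) * ρ * (∑ a, T a)ᴴ ≤ (Fintype.card α : ℝ) • ∑ a, T a * ρ * (T a)ᴴ := by
  have h1 : (∑ a, ∑ b, (T a - T b) * ρ * (T a - T b)ᴴ).PosSemidef :=
    posSemidef_sum _ fun a _ => posSemidef_sum _ fun b _ => h.mul_mul_conjTranspose_same _
  have h2 : (Fintype.card α : ℝ) • ∑ a, T a * ρ * (T a)ᴴ - (∑ a, T a) * ρ * (∑ a, T a)ᴴ =
      (2⁻¹ : ℝ) • ∑ a, ∑ b, (T a - T b) * ρ * (T a - T b)ᴴ := by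
    have h3 : (∑ a, T a) * ρ * (∑ a, T a)ᴴ = ∑ a, ∑ b, T a * ρ * (T b)ᴴ := by
      simp only [conjTranspose_sum, Matrix.sum_mul, Matrix.mul_sum]; exact sum_comm
    have h4 : ∑ a, ∑ b, T b * ρ * (T a)ᴴ = ∑ a, ∑ b, T a * ρ * (T b)ᴴ := sum_comm
    simp only [h3, conjTranspose_sub, Matrix.sub_mul, Matrix.mul_sub, sum_sub_distrib, h4,
      sum_const, card_univ, ← smul_sum, ← Nat.cast_smul_eq_nsmul ℝ]
    module
  rw [Matrix.le_iff, h2]
  exact h1.smul (by positivity)

end Crest.Agent.N336.CL
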