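import Crest.Agent.N336.P.CL.Inv_Mg
import Crest.Agent.N336.P.Defs

/-!
# Row 336, compression lemma (helper52): product forms
-/

set_option autoImplicit false
set_option linter.unusedSectionVars false

open Matrix Finset

namespace Crest.Agent.N336.CL

open Crest.MathPhysics.LatticeSpin P

variable {R Pa : Type} [Fintype R] [DecidableEq R] [Fintype Pa] [DecidableEq Pa] {q : ℕ}

/-- `f` depends only on the registers owned by `p` -/
def Dep (o : R → Pa) (p : Pa) (f : (R → Fin q) → ℂ) : Prop :=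
  ∀ σ σ', (∀ r, o r = p → σ r = σ' r) → f σ = f σ'

/-- extend a configuration on the registers of `p` -/
def ex (o : R → Pa) (y₀ : R → Fin q) (p : Pa) (z : {r // o r = p} → Fin q) : R → Fin q :=
  fun r => if h : o r = p then z ⟨r, h⟩ else y₀ r

lemma sum_prod_dep (o : R → Pa) (y₀ : R → Fin q) (H : Pa → (R → Fin q) → ℂ)
    (hH : ∀ p, Dep o p (H p)) :
    ∑ y, ∏ p, H p y = ∏ p, ∑ z : {r // o r = p} → Fin q, H p (ex o y₀ p z) := by
  rw [Finset.prod_univ_sum, Fintype.piFinset_univ]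
  let e : (R → Fin q) ≃ ∀ p, {r // o r = p} → Fin q :=
    { toFun := fun y _ z => y z.1
      invFun := fun Z r => Z (o r) ⟨r, rfl⟩
      left_inv := fun _ => rfl
      right_inv := fun Z => by funext p z; obtain ⟨r, rfl⟩ := z; rfl }
  refine Fintype.sum_equiv e _ _ fun y => prod_congr rfl fun p _ => hH p _ _ fun r hr => ?_
  simp [ex, hr, e]

/-- product vectors over the parties `I` -/
def PV (o : R → Pa) (I : Finset Pa) (a : (R → Fin q) → ℂ) : Prop :=
  ∃ u : Pa → (R → Fin q) → ℂ, (∀ p, Dep o p (u p)) ∧ (∀ p, p ∉ I → ∀ y, u p y = 1) ∧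
    ∀ y, a y = ∏ p, u p y

lemma PV.mul {o : R → Pa} {I : Finset Pa} {a b : (R → Fin q) → ℂ} (ha : PV o I a)
    (hb : PV o I b) : PV o I fun y => a y * b y := by
  obtain ⟨u, h1, h2, h3⟩ := ha
  obtain ⟨v, h4, h5, h6⟩ := hb
  exact ⟨fun p y => u p y * v p y, fun p y y' h => by simp only [h1 p y y' h, h4 p y y' h],
    fun p hp y => by simp only [h2 p hp, h5 p hp, one_mul],
    fun y => by simp only [h3, h6, prod_mul_distrib]⟩

lemma PV.of_dep {o : R → Pa} {I : Finset Pa} (hI : I.Nonempty) (ho : ∀ r, o r ∈ I) {p : Pa}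
    {a : (R → Fin q) → ℂ} (ha : Dep o p a) : PV o I a := by
  obtain ⟨p', hp', h⟩ : ∃ p' ∈ I, Dep o p' a := by
    by_cases hp : p ∈ I
    · exact ⟨p, hp, ha⟩
    · obtain ⟨p', hp'⟩ := hI
      exact ⟨p', hp', fun y y' _ => ha y y' fun r hr => absurd (hr ▸ ho r) hp⟩
  refine ⟨fun p'' y => if p'' = p' then a y else 1, fun p'' y y' hy => ?_, fun p'' hp y => ?_,
    fun y => by simp⟩
  · by_cases h1 : p'' = p'
    · subst h1; simp only [if_true, h y y' hy]
    · simp only [if_neg h1]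
  · exact if_neg fun h1 : p'' = p' => hp (h1 ▸ hp')

lemma PV.single {o : R → Pa} {I : Finset Pa} (hI : I.Nonempty) (ho : ∀ r, o r ∈ I)
    (e : R → Fin q) (c : ℂ) : PV o I (Pi.single e c) := by
  have h1 : ∀ s : Finset R, PV o I fun y => c * ∏ r ∈ s, if y r = e r then (1 : ℂ) else 0 := by
    intro s
    induction s using Finset.induction_on with
    | empty => exact PV.of_dep hI ho (p := hI.choose) fun _ _ _ => rfl
    | insert r s hr ih =>
      have h2 : PV o I fun y : R → Fin q => if y r = e r then (1 : ℂ) else 0 :=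
        PV.of_dep hI ho (p := o r) fun y y' h => by simp only [h r rfl]
      simpa only [prod_insert hr, mul_left_comm c] using h2.mul ih
  convert h1 univ using 2 with y
  rw [Finset.prod_boole, Pi.single_apply]
  simp [funext_iff]

/-- overwrite `σ` on `A` -/
def pc (A : Finset R) (u : ↥A → Fin q) (σ : R → Fin q) : R → Fin q :=
  fun r => if h : r ∈ A then u ⟨r, h⟩ else σ r

lemma localOp_mulVec (A : Finset R) (m : Matrix (↥A → Fin q) (↥A → Fin q) ℂ)
    (f : (R → Fin q) → ℂ) (σ : R → Fin q) :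
    (localOp A m *ᵥ f) σ = ∑ u, m (fun r => σ r) u * f (pc A u σ) := by
  change ∑ τ, localOp A m σ τ * f τ = _
  symm
  refine Finset.sum_of_injOn (fun u => pc A u σ) (fun u _ u' _ h => ?_) (fun _ _ => mem_univ _)
    (fun τ _ hτ => ?_) fun u _ => ?_
  · funext r; simpa [pc] using congrFun h r
  · rw [localOp, of_apply, if_neg, zero_mul]
    refine fun h => hτ ⟨fun r => τ r, mem_univ _, funext fun r => ?_⟩
    by_cases hr : r ∈ A <;> simp [pc, hr, h]
  · rw [localOp, of_apply, if_pos fun r hr => by simp [pc, hr]]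
    simp [pc]

/-- `M` maps products of party functions to products of party functions, acting only on `I` -/
def Loc (o o' : R → Pa) (I : Finset Pa) (M : Op R q) : Prop :=
  ∃ Θ : Pa → ((R → Fin q) → ℂ) → (R → Fin q) → ℂ, (∀ p f, Dep o p f → Dep o' p (Θ p f)) ∧
    (∀ p, p ∉ I → ∀ f, Dep o p f → Θ p f = f) ∧
    ∀ F : Pa → (R → Fin q) → ℂ, (∀ p, Dep o p (F p)) →
      M *ᵥ (fun τ => ∏ p, F p τ) = fun σ => ∏ p, Θ p (F p) σ

variable {o o' o'' : R → Pa} {I : Finset Pa}

lemma Loc.one (o : R → Pa) (I : Finset Pa) : Loc o o I (1 : Op R q) :=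
  ⟨fun _ f => f, fun _ _ h => h, fun _ _ _ _ => rfl, fun _ _ => one_mulVec _⟩

lemma Loc.comp {M M' : Op R q} (h : Loc o o' I M) (h' : Loc o' o'' I M') :
    Loc o o'' I (M' * M) := by
  obtain ⟨Θ, h1, h2, h3⟩ := h
  obtain ⟨Θ', h4, h5, h6⟩ := h'
  refine ⟨fun p f => Θ' p (Θ p f), fun p f hf => h4 p _ (h1 p f hf), fun p hp f hf => ?_,
    fun F hF => ?_⟩
  · exact (h5 p hp _ (h1 p f hf)).trans (h2 p hp f hf)
  · rw [← mulVec_mulVec, h3 F hF, h6 _ fun p => h1 p _ (hF p)]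

lemma Loc.zero {M : Op R q} (h : Loc o o' I M) (hI : I.Nonempty) : Loc o o' I (0 : Op R q) := by
  obtain ⟨Θ, h1, h2, -⟩ := h
  obtain ⟨p₀, hp₀⟩ := hI
  refine ⟨fun p f => if p = p₀ then 0 else Θ p f, fun p f hf => ?_, fun p hp f hf => ?_,
    fun F _ => ?_⟩
  · by_cases h : p = p₀
    · simp only [if_pos h]; exact fun _ _ _ => rfl
    · simp only [if_neg h]; exact h1 p f hf
  · have : p ≠ p₀ := fun h => hp (h ▸ hp₀)
    simp only [if_neg this, h2 p hp f hf]
  · funext σ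
    rw [zero_mulVec, Pi.zero_apply, eq_comm]
    exact prod_eq_zero (mem_univ p₀) (by simp)

lemma Loc.priv {A : Finset R} (m : Matrix (↥A → Fin q) (↥A → Fin q) ℂ) {p₀ : Pa} (hp₀ : p₀ ∈ I)
    (hA : ∀ r ∈ A, o r = p₀) : Loc o o I (localOp A m) := by
  refine ⟨fun p f => if p = p₀ then localOp A m *ᵥ f else f, fun p f hf => ?_,
    fun p hp f _ => if_neg fun h : p = p₀ => hp (h ▸ hp₀), fun F hF => ?_⟩
  · by_cases h : p = p₀
    · subst h
      intro σ σ' hσ
      simp only [if_true, localOp_mulVec]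
      refine sum_congr rfl fun u _ => ?_
      rw [funext fun r : A => hσ r (hA r r.2), hf (pc A u σ) (pc A u σ') fun r hr => ?_]
      simp only [pc, hσ r hr]
    · simp only [if_neg h]; exact hf
  · funext σ
    beta_reduce
    rw [localOp_mulVec, ← mul_prod_erase _ _ (mem_univ p₀), if_pos rfl, localOp_mulVec, sum_mul]
    refine sum_congr rfl fun u _ => ?_
    rw [← mul_prod_erase _ _ (mem_univ p₀), mul_assoc]
    congr 2
    refine prod_congr rfl fun p hp => ?_
    rw [if_neg (mem_erase.1 hp).1]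
    refine hF p _ _ fun r hr => dif_neg fun h => (mem_erase.1 hp).1 ?_
    rw [← hr, hA r h]

lemma Loc.rank (y₀ : R → Fin q) {A : Finset R} {a a' : (↥A → Fin q) → ℂ}
    (ha : PV (fun r : A => o' r) I a) (ha' : PV (fun r : A => o r) I a')
    (hoff : ∀ r, r ∉ A → o' r = o r) (hA : ∀ r ∈ A, o r ∈ I) :
    Loc o o' I (localOp A (vecMulVec a (star a'))) := by
  obtain ⟨u, h1, h2, h3⟩ := ha
  obtain ⟨v, h4, h5, h6⟩ := ha'
  refine ⟨fun p f σ => u p (fun r => σ r) * ∑ z : {r : A // o r = p} → Fin q,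
    star (v p (ex (fun r : A => o r) (fun r => y₀ r) p z)) *
      f (pc A (ex (fun r : A => o r) (fun r => y₀ r) p z) σ), fun p f hf σ σ' hσ => ?_,
    fun p hp f hf => funext fun σ => ?_, fun F hF => funext fun σ => ?_⟩
  · simp only
    rw [h1 p (fun r => σ r) (fun r => σ' r) fun r hr => hσ r hr]
    refine congrArg _ (sum_congr rfl fun z _ => congrArg _ (hf _ _ fun r hr => ?_))
    by_cases h : r ∈ A
    · simp only [pc, dif_pos h]
    · simp only [pc, dif_neg h]; exact hσ r ((hoff r h).trans hr)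
  · have : IsEmpty {r : A // o r = p} := ⟨fun r => hp (r.2 ▸ hA r.1 r.1.2)⟩
    simp only [h2 p hp, h5 p hp, star_one, one_mul, Fintype.sum_unique]
    exact hf _ _ fun r hr => dif_neg fun h => hp (hr ▸ hA r h)
  · rw [localOp_mulVec, prod_mul_distrib, ← h3, ← sum_prod_dep (fun r : A => o r) (fun r => y₀ r)
      (fun p y => star (v p y) * F p (pc A y σ)) fun p y y' hy => ?_, mul_sum]
    · refine sum_congr rfl fun y _ => ?_
      rw [vecMulVec_apply, Pi.star_apply, h6, prod_mul_distrib, star_prod, mul_assoc]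
    · simp only
      rw [h4 p y y' hy, hF p (pc A y σ) (pc A y' σ) fun r hr => ?_]
      by_cases h : r ∈ A
      · simp only [pc, dif_pos h]; exact hy _ hr
      · simp only [pc, dif_neg h]

/-- a sum of at most `m` local operators -/
def SL (m : ℕ) (o o' : R → Pa) (I : Finset Pa) (T : Op R q) : Prop :=
  Loc o o' I (0 : Op R q) ∧ ∃ (ι : Type) (_ : Fintype ι) (M : ι → Op R q), Fintype.card ι ≤ m ∧
    (∀ j, Loc o o' I (M j)) ∧ T = ∑ j, M j

lemma SL.mono {m m' : ℕ} {T : Op R q} (h : SL m o o' I T) (hm : m ≤ m') : SL m' o o' I T := by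
  obtain ⟨h0, ι, _, M, h1, h2, h3⟩ := h
  exact ⟨h0, ι, _, M, h1.trans hm, h2, h3⟩

lemma Loc.sl {T : Op R q} (h : Loc o o' I T) (hI : I.Nonempty) : SL 1 o o' I T :=
  ⟨h.zero hI, Unit, inferInstance, fun _ => T, by simp, fun _ => h, by simp⟩

lemma SL.comp {m m' : ℕ} {T T' : Op R q} (h : SL m o o' I T) (h' : SL m' o' o'' I T') :
    SL (m * m') o o'' I (T' * T) := by
  obtain ⟨h0, ι, _, M, h1, h2, rfl⟩ := h
  obtain ⟨h0', ι', _, M', h1', h2', rfl⟩ := h'
  refine ⟨by simpa using h0.comp h0', ι × ι', inferInstance, fun j => M' j.2 * M j.1, ?_,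
    fun j => (h2 _).comp (h2' _), ?_⟩
  · rw [Fintype.card_prod]; exact Nat.mul_le_mul h1 h1'
  · rw [Fintype.sum_prod_type, Matrix.mul_sum]; simp only [Matrix.sum_mul]

lemma SL.sum {m nb : ℕ} {T : Fin nb → Op R q} (h1 : 1 ≤ nb) (h : ∀ β, SL m o o' I (T β)) :
    SL (nb * m) o o' I (∑ β, T β) := by
  choose ι hι M h2 h3 h4 using fun β => (h β).2
  refine ⟨(h ⟨0, h1⟩).1, Σ β, ι β, inferInstance, fun j => M j.1 j.2, ?_, fun j => h3 _ _, ?_⟩
  · rw [Fintype.card_sigma]
    exact (sum_le_card_nsmul _ _ m fun β _ => h2 β).trans (by simp)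
  · rw [Fintype.sum_sigma]; exact sum_congr rfl fun β _ => h4 β

lemma SL.fin {m : ℕ} {T : Op R q} (h : SL m o o' I T) :
    ∃ M : Fin m → Op R q, (∀ j, Loc o o' I (M j)) ∧ T = ∑ j, M j := by
  obtain ⟨h0, ι, _, M, h1, h2, rfl⟩ := h
  obtain ⟨f⟩ := Function.Embedding.nonempty_of_card_le (α := ι) (β := Fin m) (by simpa using h1)
  refine ⟨Function.extend f M 0, fun j => ?_, Fintype.sum_of_injective f f.injective _ _
    (fun j hj => Function.extend_apply' _ _ _ hj) fun i => (f.injective.extend_apply _ _ _).symm⟩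
  by_cases hj : ∃ i, f i = j
  · obtain ⟨i, rfl⟩ := hj
    rw [f.injective.extend_apply]; exact h2 i
  · rw [Function.extend_apply' _ _ _ hj]; exact h0

lemma partyForm_step {t V : ℕ} {I : ℕ → Finset Pa} {ψ : (R → Fin q) → ℂ} {T : Op R q}
    (h : PartyForm t V o I ψ) (hT : SL V o o' (I t) T) : PartyForm (t + 1) V o' I (T *ᵥ ψ) := by
  obtain ⟨F, h1, h2⟩ := h
  obtain ⟨M, h3, rfl⟩ := hT.fin
  choose Θ h4 h5 h6 using h3
  have hF : ∀ p x, Dep o p fun τ => F p τ x := fun p x σ σ' h => h1 p _ _ _ _ h fun _ _ => rfl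
  refine ⟨fun p σ x => Θ (x (Fin.last t)) p (fun τ => F p τ (Fin.init x)) σ,
    fun p σ σ' x x' hσ hx => ?_, fun σ => ?_⟩
  · have e1 : (fun τ => F p τ (Fin.init x)) = fun τ => F p τ (Fin.init x') :=
      funext fun τ => h1 p _ _ _ _ (fun _ _ => rfl) fun g hg => hx g.castSucc hg
    simp only
    rw [h4 _ p _ (hF p _) σ σ' hσ, e1]
    by_cases hp : p ∈ I t
    · rw [hx (Fin.last t) hp]
    · rw [h5 _ p hp _ (hF p _), h5 _ p hp _ (hF p _)]
  · have e2 : ψ = ∑ x : Fin t → Fin V, fun τ => ∏ p, F p τ x := by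
      funext τ; rw [h2, Finset.sum_apply]
    rw [← (Fin.snocEquiv fun _ => Fin V).sum_comp, Fintype.sum_prod_type, e2, sum_mulVec,
      Finset.sum_apply]
    refine sum_congr rfl fun l _ => ?_
    rw [mulVec_sum, Finset.sum_apply]
    refine sum_congr rfl fun x _ => ?_
    rw [h6 l (fun p τ => F p τ x) fun p => hF p x]
    simp [Fin.snocEquiv]

lemma partyForm_row {Λ : Type} [Fintype Λ] [DecidableEq Λ] (y₀ : R → Fin q) {n V : ℕ}
    {I : ℕ → Finset Pa} {ψ ψ' : (R → Fin q) → ℂ} (h : PartyForm n V o I ψ)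
    (h' : PartyForm n V o I ψ') (e : Λ ↪ R) {fin : Λ → Pa} (he : ∀ z, o (e z) = fin z)
    (s' : Λ → Fin q) : PartyForm n (V ^ 2) fin I fun s =>
      ∑ j, star (ψ' (gl (d := fun _ => Fin q) e s' j)) * ψ (gl (d := fun _ => Fin q) e s j) := by
  obtain ⟨F, h1, h2⟩ := h
  obtain ⟨F', h1', h2'⟩ := h'
  let E : Fin (V ^ 2) ≃ Fin V × Fin V := (finCongr (sq V)).trans finProdFinEquiv.symm
  let oj : {r // r ∉ Q.rg e} → Pa := fun r => o r
  have hg : ∀ (p : Pa) (s₁ s₂ : Λ → Fin q) (j₁ j₂ : {r // r ∉ Q.rg e} → Fin q),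
      (∀ z, fin z = p → s₁ z = s₂ z) → (∀ r, oj r = p → j₁ r = j₂ r) → ∀ r, o r = p →
      gl (d := fun _ => Fin q) e s₁ j₁ r = gl (d := fun _ => Fin q) e s₂ j₂ r := by
    intro p s₁ s₂ j₁ j₂ hs hj r hr
    by_cases h : r ∈ Q.rg e
    · obtain ⟨z, rfl⟩ := Q.mem_rg.1 h
      rw [gl_in, gl_in]; exact hs z ((he z).symm.trans hr)
    · rw [gl_out _ _ _ _ h, gl_out _ _ _ _ h]; exact hj _ hr
  refine ⟨fun p s x => ∑ z : {r // oj r = p} → Fin q,
    star (F' p (gl (d := fun _ => Fin q) e s' (ex oj (fun r => y₀ r) p z)) fun g => (E (x g)).2) *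
      F p (gl (d := fun _ => Fin q) e s (ex oj (fun r => y₀ r) p z)) fun g => (E (x g)).1,
    fun p s₁ s₂ x x' hs hx => sum_congr rfl fun z _ => ?_, fun s => ?_⟩
  · rw [h1' p _ _ _ (fun g => (E (x' g)).2) (fun _ _ => rfl) fun g hg => by rw [hx g hg],
      h1 p _ _ _ (fun g => (E (x' g)).1) (hg p s₁ s₂ _ _ hs fun _ _ => rfl)
        fun g hg => by rw [hx g hg]]
  · let E' : (Fin n → Fin (V ^ 2)) ≃ (Fin n → Fin V) × (Fin n → Fin V) :=
      (Equiv.piCongrRight fun _ => E).trans (Equiv.arrowProdEquivProdArrow _ _ _)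
    rw [← E'.symm.sum_comp, Fintype.sum_prod_type]
    simp only [h2, h2', star_sum, sum_mul_sum]
    refine sum_comm.trans (Eq.trans (sum_congr rfl fun x' _ => ?_) sum_comm)
    refine sum_comm.trans (sum_congr rfl fun x _ => ?_)
    simp only [star_prod, ← prod_mul_distrib]
    rw [sum_prod_dep oj (fun r => y₀ r) (fun p j => star (F' p (gl (d := fun _ => Fin q) e s' j) x') *
      F p (gl (d := fun _ => Fin q) e s j) x) fun p j j' hj => ?_]
    · simp [E']
    · simp only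
      rw [h1' p _ _ x' x' (hg p s' s' j j' (fun _ _ => rfl) hj) fun _ _ => rfl,
        h1 p _ _ x x (hg p s s j j' (fun _ _ => rfl) hj) fun _ _ => rfl]

end Crest.Agent.N336.CL
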