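import Crest.Agent.N336.A.Loc
import Crest.Agent.N336.A.FF2
import Crest.Agent.N336.P.CL.Prod
import Crest.Agent.N336.P.CL.Inv_Mg

-- ▼ part N336/A/FF
section

/-!
# Row 336, item 1: `ff : FFStmt` (helper37)
-/

namespace Crest.Agent.N336.A

/-- item 1: replacement by positive local terms -/
theorem ff : FFStmt := FF.ff_of gf

end Crest.Agent.N336.A
end

-- ▼ part N336/P/CL/Samp
section

/-!
# Row 336, compression lemma (helper52): sampled gates and the invariant along a gate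
-/

set_option autoImplicit false
set_option linter.unusedSectionVars false

open Matrix Finset
open scoped ComplexOrder MatrixOrder Matrix.Norms.L2Operator

namespace Crest.Agent.N336.CL

open Crest.MathPhysics.LatticeSpin P

variable {R Pa : Type} [Fintype R] [DecidableEq R] [Fintype Pa] [DecidableEq Pa] {q : ℕ}

/-- support, constant local dimension -/
abbrev Sp (X : Finset R) (M : Op R q) : Prop := Q.Supp (d := fun _ => Fin q) X M

/-- the invariant, constant local dimension -/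
abbrev UU (X : Finset R) (ρ : Op R q) (c : ℝ) : Prop := U (d := fun _ => Fin q) X ρ c

/-- source on a set of registers -/
abbrev sr (A : Finset R) (a : (↥A → Fin q) → ℂ) := src (d := fun _ => Fin q) (Q.sb A) a

lemma sp_localOp (A : Finset R) (m : Matrix (↥A → Fin q) (↥A → Fin q) ℂ) :
    Sp A (localOp A m) := Q.isSupportedOn_iff.1 ⟨m, rfl⟩

lemma norm_localOp_le (A : Finset R) (m : Matrix (↥A → Fin q) (↥A → Fin q) ℂ) :
    ‖localOp A m‖ ≤ opN m := by
  rw [Q.localOp_eq]; exact Q.norm_emb_le _ _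

lemma localOp_rank (A : Finset R) (a a' : (↥A → Fin q) → ℂ) :
    localOp A (vecMulVec a (star a')) = sr A a * (sr A a')ᴴ := by
  rw [Q.localOp_eq]; exact emb_vecMulVec (d := fun _ => Fin q) (Q.sb A) a a'

theorem node {A : Finset R} {o : R → Pa} {I : Finset Pa} {a : (↥A → Fin q) → ℂ} (hPB : PB o A a)
    (ha : nsq a ≤ 1) (hA : ∀ r ∈ A, o r ∈ I) (hI : I.Nonempty) {k : ℕ} (hk : 1 ≤ k) :
    ∃ (W : Type) (_ : Fintype W) (_ : Nonempty W) (b : W → Fin k → (↥A → Fin q) → ℂ),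
      (∀ w j, PV (fun r : A => o r) I (b w j)) ∧
      Appr (fun w => sr A (∑ j, b w j)) (sr A a) (1 + 1 / k) := by
  have ho : ∀ r : A, o r ∈ I := fun r => hA r r.2
  rcases hPB with ⟨p, p', hp⟩ | ⟨e, c, rfl⟩
  · let E := Equiv.piEquivPiSubtypeProd (fun r : A => o r = p) fun _ => Fin q
    obtain ⟨W, _, _, f, g, b, h1, h2, h3⟩ := node_core E a ha hk
    refine ⟨W, ‹_›, ‹_›, fun w j y => f w j (E y).1 * g w j (E y).2,
      fun w j => PV.mul (PV.of_dep hI ho (p := p) ?_) (PV.of_dep hI ho (p := p') ?_), ?_⟩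
    rotate_left 2
    · simp only [← h1]; exact appr_src (d := fun _ => Fin q) (Q.sb A) h2 ha h3
    · intro y y' h
      exact congrArg (f w j) (funext fun r => h r.1 r.2)
    · intro y y' h
      exact congrArg (g w j) (funext fun r => h r.1 ((hp r.1 r.1.2).resolve_left r.2))
  · have hk0 : (k : ℂ) ≠ 0 := by exact_mod_cast (by omega : k ≠ 0)
    refine ⟨Unit, inferInstance, inferInstance, fun _ _ => Pi.single e ((k : ℂ)⁻¹ * c),
      fun _ _ => PV.single hI ho _ _, ?_⟩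
    have : (∑ _j : Fin k, Pi.single e ((k : ℂ)⁻¹ * c) : (↥A → Fin q) → ℂ) = Pi.single e c := by
      funext y
      simp only [sum_const, card_univ, Fintype.card_fin, Pi.smul_apply, nsmul_eq_mul,
        Pi.single_apply]
      split_ifs
      · field_simp
      · simp
    simp only [this]
    exact (Appr.const (norm_src_le _ ha)).mono (le_add_of_nonneg_right (by positivity))

/-- registers owned by `I` -/
def Own (o : R → Pa) (I : Finset Pa) : Finset R := univ.filter fun r => o r ∈ I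

variable {I Inv : Finset Pa} {o o' : R → Pa} {k : ℕ}

lemma valid_sub {st : Step R Pa q} (h : st.Valid I o) : st.A ⊆ Own o I :=
  fun r hr => mem_filter.2 ⟨mem_univ _, (h.2.1 r hr).1⟩

lemma valid_own {st : Step R Pa q} (h : st.Valid I o) (r : R) :
    (o r ∈ I ∧ st.out r ∈ I) ∨ st.out r = o r :=
  (em (r ∈ st.A)).imp (h.2.1 r) (h.1 r)

lemma chain_own : ∀ {l : List (Step R Pa q)} {o : R → Pa}, Chain I o l o' → ∀ r,
    (o r ∈ I ∧ o' r ∈ I) ∨ o' r = o r
  | [], _, h, r => Or.inr (congrFun h r).symm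
  | st :: l, o, h, r => by
    rcases valid_own h.1 r with h1 | h1 <;> rcases chain_own h.2 r with h2 | h2
    · exact Or.inl ⟨h1.1, h2.2⟩
    · exact Or.inl ⟨h1.1, h2 ▸ h1.2⟩
    · exact Or.inl ⟨h1 ▸ h2.1, h2.2⟩
    · exact Or.inr (h2.trans h1)

lemma own_eq (h : ∀ r, (o r ∈ I ∧ o' r ∈ I) ∨ o' r = o r) {K : Finset Pa}
    (hK : I ⊆ K ∨ Disjoint I K) : Own o' K = Own o K := by
  ext r
  simp only [Own, mem_filter, mem_univ, true_and]
  rcases h r with h1 | h1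
  · rcases hK with h2 | h2
    · exact ⟨fun _ => h2 h1.1, fun _ => h2 h1.2⟩
    · exact ⟨fun h3 => absurd h3 (disjoint_left.1 h2 h1.2),
        fun h3 => absurd h3 (disjoint_left.1 h2 h1.1)⟩
  · rw [h1]

lemma chain_supp : ∀ {l : List (Step R Pa q)} {o : R → Pa}, Chain I o l o' →
    Sp (Own o I) (opOf l)
  | [], _, _ => Q.Supp.one _
  | st :: _, _, h => (own_eq (valid_own h.1) (Or.inl subset_rfl) ▸ chain_supp h.2).mul
      ((sp_localOp st.A st.M).mono (valid_sub h.1))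

theorem step_samp (y₀ : R → Fin q) {st : Step R Pa q} (h : st.Valid I o) (hI : I.Nonempty)
    (hk : 1 ≤ k) : ∃ (W : Type) (_ : Fintype W) (_ : Nonempty W) (T : W → Op R q),
      Appr T (localOp st.A st.M) ((1 + 1 / k) ^ 2) ∧ (∀ w, Sp st.A (T w)) ∧
      ∀ w, SL (k ^ 2) o st.out I (T w) := by
  obtain ⟨h1, h2, ⟨h3, p, hp⟩ | ⟨a, a', h3, ha, ha', h4, h5⟩⟩ := h
  · obtain ⟨p', hp', h4⟩ : ∃ p' ∈ I, ∀ r ∈ st.A, o r = p' := by
      rcases st.A.eq_empty_or_nonempty with h4 | ⟨r, hr⟩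
      · exact ⟨hI.choose, hI.choose_spec, by simp [h4]⟩
      · exact ⟨p, (hp r hr).1 ▸ (h2 r hr).1, fun r hr => (hp r hr).1⟩
    have h5 : st.out = o := funext fun r => by
      by_cases hr : r ∈ st.A
      · rw [(hp r hr).1, (hp r hr).2]
      · exact h1 r hr
    refine ⟨Unit, inferInstance, inferInstance, fun _ => localOp st.A st.M,
      (Appr.const ((norm_localOp_le _ _).trans h3)).mono
        (one_le_pow₀ (le_add_of_nonneg_right (by positivity))), fun _ => sp_localOp _ _,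
      fun _ => ?_⟩
    rw [h5]
    exact ((Loc.priv st.M hp' h4).sl hI).mono (Nat.one_le_pow _ _ hk)
  · obtain ⟨W, _, _, b, hb, hW⟩ := node h5 ha (fun r hr => (h2 r hr).2) hI hk
    obtain ⟨W', _, _, b', hb', hW'⟩ := node h4 ha' (fun r hr => (h2 r hr).1) hI hk
    have hL : ∀ (w : W' × W) (j : Fin k × Fin k),
        Loc o st.out I (localOp st.A (vecMulVec (b w.2 j.1) (star (b' w.1 j.2)))) :=
      fun w j => Loc.rank y₀ (hb _ _) (hb' _ _) h1 fun r hr => (h2 r hr).1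
    refine ⟨W' × W, inferInstance, inferInstance,
      fun w => sr st.A (∑ j, b w.2 j) * (sr st.A (∑ j, b' w.1 j))ᴴ, ?_, fun w => ?_,
      fun w => ⟨(hL w (⟨0, hk⟩, ⟨0, hk⟩)).zero hI, Fin k × Fin k, inferInstance, _,
        by simp [pow_two], hL w, ?_⟩⟩
    · have h6 := hW'.adj.comp hW
      rw [h3, localOp_rank, pow_two]
      exact h6
    · simp only [← localOp_rank]; exact sp_localOp _ _
    · simp only [localOp_rank, sr, src_sum, conjTranspose_sum, Matrix.sum_mul, Matrix.mul_sum,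
        Fintype.sum_prod_type]
      exact sum_comm

theorem chain_samp (y₀ : R → Fin q) (hI : I.Nonempty) (hk : 1 ≤ k) :
    ∀ {l : List (Step R Pa q)} {o : R → Pa}, Chain I o l o' →
      ∃ (W : Type) (_ : Fintype W) (_ : Nonempty W) (T : W → Op R q),
        Appr T (opOf l) ((1 + 1 / k) ^ (2 * l.length)) ∧ (∀ w, Sp (Own o I) (T w)) ∧
        ∀ w, SL (k ^ (2 * l.length)) o o' I (T w)
  | [], o, h => ⟨Unit, inferInstance, inferInstance, fun _ => 1,
      by simpa [opOf] using Appr.const norm_one_le, fun _ => Q.Supp.one _,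
      fun _ => by cases h; exact (Loc.one _ _).sl hI⟩
  | st :: l, o, h => by
    obtain ⟨W, _, _, T, h1, h2, h3⟩ := step_samp y₀ h.1 hI hk
    obtain ⟨W', _, _, T', h4, h5, h6⟩ := chain_samp y₀ hI hk h.2
    rw [own_eq (valid_own h.1) (Or.inl subset_rfl)] at h5
    have e : 2 * (st :: l).length = 2 + 2 * l.length := by rw [List.length_cons]; ring
    refine ⟨W × W', inferInstance, inferInstance, fun w => T' w.2 * T w.1, ?_,
      fun w => (h5 _).mul ((h2 _).mono (valid_sub h.1)), fun w => ?_⟩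
    · rw [e, pow_add]; exact h1.comp h4
    · rw [e, pow_add]; exact (h3 _).comp (h6 _)

theorem gate_samp (y₀ : R → Fin q) {g : Gate R Pa q} {B ℓ : ℕ} (h : g.Valid B ℓ o o')
    (hI : g.I.Nonempty) (hk : 1 ≤ k) :
    ∃ (W : Type) (_ : Fintype W) (_ : Nonempty W) (T : W → Fin g.nb → Op R q),
      (∀ β, HSB ((1 + 1 / k) ^ (2 * ℓ) - 1) fun w => T w β - opOf (g.br β)) ∧
      (∀ w β, Sp (Own o g.I) (T w β)) ∧ ∀ w, SL (B * k ^ (2 * ℓ)) o o' g.I (∑ β, T w β) := by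
  choose W hW hW' T h1 h2 h3 using fun β => chain_samp y₀ hI hk (h.2.2.1 β).2
  refine ⟨∀ β, W β, inferInstance, inferInstance, fun w β => T β (w β), fun β => ?_,
    fun w β => h2 β _, fun w => ?_⟩
  · refine (HSB.pi β (h1 β).dev).mono (sub_le_sub_right (pow_le_pow_right₀
      (le_add_of_nonneg_right (by positivity)) ?_) _)
    linarith [(h.2.2.1 β).1]
  · refine (SL.sum h.1 fun β => (h3 β (w β)).mono (Nat.pow_le_pow_right hk ?_)).mono
      (Nat.mul_le_mul_right _ h.2.1)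
    linarith [(h.2.2.1 β).1]

/-! ### the invariant along steps and gates -/

variable {ρ : Op R q} {c : ℝ}

lemma U_step (y₀ : R → Fin q) {st : Step R Pa q} (h : st.Valid I o) (hU : UU (Own o Inv)ᶜ ρ c) :
    UU (Own st.out Inv)ᶜ (localOp st.A st.M * ρ * (localOp st.A st.M)ᴴ) c := by
  obtain ⟨h1, h2, ⟨h3, p, hp⟩ | ⟨a, a', h3, ha, ha', -, -⟩⟩ := h
  · have h5 : st.out = o := funext fun r => by
      by_cases hr : r ∈ st.A
      · rw [(hp r hr).1, (hp r hr).2]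
      · exact h1 r hr
    have h6 := (norm_localOp_le _ _).trans h3
    rw [h5]
    by_cases h7 : p ∈ Inv
    · exact hU.outside' ((sp_localOp _ _).mono fun r hr => by simp [Own, (hp r hr).1, h7]) h6
    · exact hU.inside ((sp_localOp _ _).mono fun r hr => by simp [Own, (hp r hr).1, h7]) h6
  · rw [h3, localOp_rank]
    refine (@U.rank R st.A _ _ _ _ (fun _ => Fin q) _ _ _ _ _ (fun x => ⟨y₀ x⟩) hU (Q.sb st.A) _ _
      ha ha').subset fun r hr => ?_
    by_cases h4 : r ∈ st.A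
    · simp [h4]
    · simpa [Own, h4, h1 r h4] using hr

lemma U_chain (y₀ : R → Fin q) : ∀ {l : List (Step R Pa q)} {o : R → Pa} {ρ : Op R q}, Chain I o l o' →
    UU (Own o Inv)ᶜ ρ c → UU (Own o' Inv)ᶜ (opOf l * ρ * (opOf l)ᴴ) c
  | [], _, _, h, hU => by cases h; simpa [opOf] using hU
  | st :: l, _, _, h, hU => by
    have := U_chain y₀ h.2 (U_step y₀ h.1 hU)
    simpa only [opOf, conjTranspose_mul, Matrix.mul_assoc] using this

variable {g : Gate R Pa q} {B ℓ : ℕ}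

lemma U_gate_out (h : g.Valid B ℓ o o') (hd : Disjoint g.I Inv) (hU : UU (Own o Inv)ᶜ ρ c) :
    UU (Own o' Inv)ᶜ (g.op * ρ * g.opᴴ) c := by
  rw [own_eq (chain_own (h.2.2.1 ⟨0, h.1⟩).2) (Or.inr hd)]
  refine hU.inside (Q.Supp.sum fun β _ => (chain_supp (h.2.2.1 β).2).mono fun r hr => ?_) h.2.2.2
  simp only [Own, mem_filter, mem_univ, true_and, mem_compl] at hr ⊢
  exact disjoint_left.1 hd hr

lemma U_branches {N : Finset R} {nb : ℕ} (hB : nb ≤ B) {ρ' : Op R q} {σ : Fin nb → Op R q}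
    (h0 : ρ'.PosSemidef) (hc : 0 ≤ c) (h1 : ρ' ≤ (Fintype.card (Fin nb) : ℝ) • ∑ β, σ β)
    (h2 : ∀ β, UU N (σ β) c) : UU N ρ' ((B : ℝ) ^ 2 * c) := by
  refine (((U.sum fun β _ => h2 β).smul (Nat.cast_nonneg _)).le h0 h1).mono ?_
  have : (nb : ℝ) ≤ B := by exact_mod_cast hB
  rw [sum_const, card_univ, Fintype.card_fin, nsmul_eq_mul, ← mul_assoc, ← pow_two]
  gcongr

lemma U_gate_meet (y₀ : R → Fin q) (h : g.Valid B ℓ o o') (h0 : ρ.PosSemidef) (hU : UU (Own o Inv)ᶜ ρ c) :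
    UU (Own o' Inv)ᶜ (g.op * ρ * g.opᴴ) ((B : ℝ) ^ 2 * c) :=
  U_branches h.2.1 (h0.mul_mul_conjTranspose_same _) hU.nonneg (conj_sum_le h0 _)
    fun β => U_chain y₀ (h.2.2.1 β).2 hU

lemma U_gate_dev (h : g.Valid B ℓ o o') (hI : g.I ⊆ Inv) (h0 : ρ.PosSemidef)
    (hU : UU (Own o Inv)ᶜ ρ c) {W : Type} [Fintype W] {T : W → Fin g.nb → Op R q} {δ : ℝ}
    (h1 : ∀ β, HSB δ fun w => T w β - opOf (g.br β)) (h2 : ∀ w β, Sp (Own o g.I) (T w β)) :
    UU (Own o' Inv)ᶜ (av fun w => (∑ β, T w β - g.op) * ρ * (∑ β, T w β - g.op)ᴴ)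
      ((B : ℝ) ^ 2 * (δ * c)) := by
  rw [own_eq (chain_own (h.2.2.1 ⟨0, h.1⟩).2) (Or.inl hI)]
  refine U_branches h.2.1 (av_posSemidef fun w => h0.mul_mul_conjTranspose_same _)
    (mul_nonneg (h1 ⟨0, h.1⟩).1 hU.nonneg) ?_ fun β => hU.outside (fun w => ?_) (h1 β)
  · rw [← av_sum, smul_av]
    refine av_le_av fun w => ?_
    rw [Gate.op, ← sum_sub_distrib]
    exact conj_sum_le h0 _
  · refine ((h2 w β).sub (chain_supp (h.2.2.1 β).2)).mono fun r hr => ?_
    simp only [Own, mem_filter, mem_univ, true_and, compl_compl] at hr ⊢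
    exact hI hr

end Crest.Agent.N336.CL
end

-- ▼ part N336/P/CL/Run
section

/-!
# Row 336, compression lemma (helper52): sampled runs, second moment, choice of a row
-/

set_option autoImplicit false
set_option linter.unusedSectionVars false

open Matrix Finset
open scoped ComplexOrder MatrixOrder Matrix.Norms.L2Operator

namespace Crest.Agent.N336.CL

open Crest.MathPhysics.LatticeSpin P

/-! ### general facts -/

lemma one_add_pow_le {y : ℝ} (hy : 0 ≤ y) : ∀ N : ℕ, N * y ≤ 1 / 2 → (1 + y) ^ N ≤ 1 + 2 * (N * y)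
  | 0, _ => by simp
  | N + 1, h => by
    push_cast at h ⊢
    have h1 := one_add_pow_le hy N (by nlinarith)
    rw [pow_succ]
    nlinarith [mul_le_mul_of_nonneg_right h1 (by linarith : 0 ≤ 1 + y), mul_nonneg hy hy]

lemma second_moment {W W' J O : Type} [Fintype W] [Fintype W'] [Fintype J] [Fintype O]
    (A : W → Matrix J O ℂ) (A' : W' → Matrix J O ℂ) :
    (av fun w : W × W' => fro ((A' w.2)ᴴ * A w.1) ^ 2) ≤
      fro (av fun w => A w * (A w)ᴴ) * fro (av fun w => A' w * (A' w)ᴴ) := by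
  refine le_trans (le_of_eq ?_) (re_trace_le _ _)
  rw [av_prod, av_conjTranspose, av_mul, trace_av, re_av]
  congr 1; funext w
  rw [mul_av, trace_av, re_av]
  congr 1; funext w'
  simp only [fro_sq_eq_trace, conjTranspose_mul, conjTranspose_conjTranspose, Matrix.mul_assoc]
  rw [trace_mul_comm (A w)]; simp only [Matrix.mul_assoc]

lemma near_of_fro {Λ : Type} [Fintype Λ] [DecidableEq Λ] {q : ℕ} (X : Op Λ q) (φ : Vec Λ q)
    (hφ : ‖φ‖ = 1) {e : ℝ} (h0 : 0 < e) (h1 : e ≤ 1 / 4)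
    (h : fro (X - vecMulVec (star φ.ofLp) φ.ofLp) ≤ e) :
    ∃ s, Near (WithLp.toLp 2 (X s)) φ (4 * e) := by
  let r : (Λ → Fin q) → Vec Λ q := fun s => WithLp.toLp 2 (X s)
  have h2 : ∑ s, ‖r s - star (φ s) • φ‖ ^ 2 ≤ e ^ 2 := by
    refine le_trans (le_of_eq ?_) (pow_le_pow_left₀ (fro_nonneg _) h 2)
    rw [fro_sq]
    exact sum_congr rfl fun s _ => EuclideanSpace.norm_sq_eq _
  have h3 : (1 - e) ^ 2 ≤ ∑ s, ‖r s‖ ^ 2 := by
    have e1 : fro (vecMulVec (star φ.ofLp) φ.ofLp) = 1 := by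
      have := fro_vecMulVec (star φ.ofLp)
      rw [star_star] at this
      rw [this, ← one_pow 2, ← hφ, ← nsq_eq]; simp [nsq]
    have e2 := fro_sub_le X (X - vecMulVec (star φ.ofLp) φ.ofLp)
    rw [sub_sub_cancel, e1] at e2
    refine (pow_le_pow_left₀ (by linarith) (by linarith : 1 - e ≤ fro X) 2).trans_eq ?_
    rw [fro_sq]
    exact sum_congr rfl fun s _ => (EuclideanSpace.norm_sq_eq (r s)).symm
  obtain ⟨s, -, hs⟩ : ∃ s ∈ univ, ‖r s - star (φ s) • φ‖ ^ 2 < (2 * e * ‖r s‖) ^ 2 := by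
    refine exists_lt_of_sum_lt (h2.trans_lt ?_)
    simp only [mul_pow, ← mul_sum]
    nlinarith [mul_le_mul_of_nonneg_left h3 (sq_nonneg e), mul_pos h0 h0]
  have h4 : ‖r s - star (φ s) • φ‖ < 2 * e * ‖r s‖ :=
    lt_of_pow_lt_pow_left₀ 2 (by positivity) hs
  have h5 : 0 < ‖r s‖ := by
    by_contra h5
    have : ‖r s‖ = 0 := le_antisymm (not_lt.1 h5) (norm_nonneg _)
    rw [this, mul_zero] at h4
    exact absurd h4 (not_lt.2 (norm_nonneg _))
  set c : ℂ := ((‖r s‖⁻¹ : ℝ) : ℂ) * star (φ s) with hc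
  have h6 : ‖((‖r s‖⁻¹ : ℝ) : ℂ) • r s - c • φ‖ ≤ 2 * e := by
    rw [hc, mul_smul, ← smul_sub, norm_smul, Complex.norm_real, norm_inv, norm_norm,
      inv_mul_le_iff₀ h5, mul_comm]
    exact h4.le
  have h7 : ‖((‖r s‖⁻¹ : ℝ) : ℂ) • r s‖ = 1 := by
    rw [norm_smul, Complex.norm_real, norm_inv, norm_norm, inv_mul_cancel₀ h5.ne']
  have h8 := (abs_norm_sub_norm_le _ _).trans h6
  rw [h7, norm_smul, hφ, mul_one] at h8
  refine ⟨s, norm_pos_iff.1 h5, c.arg, (norm_sub_le_norm_sub_add_norm_sub _ (c • φ) _).trans ?_⟩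
  have h9 : ‖c • φ - Complex.exp (c.arg * Complex.I) • φ‖ = |1 - ‖c‖| := by
    rw [← sub_smul, norm_smul, hφ, mul_one]
    have : c - Complex.exp (c.arg * Complex.I) =
        ((‖c‖ - 1 : ℝ) : ℂ) * Complex.exp (c.arg * Complex.I) := by
      push_cast; rw [sub_mul, Complex.norm_mul_exp_arg_mul_I, one_mul]
    rw [this, norm_mul, Complex.norm_exp_ofReal_mul_I, mul_one, Complex.norm_real,
      Real.norm_eq_abs, abs_sub_comm]
  change ‖((‖r s‖⁻¹ : ℝ) : ℂ) • r s - c • φ‖ + _ ≤ _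
  linarith

/-! ### runs -/

/-- samples of the first `t` gates -/
def Om (W : ℕ → Type) : ℕ → Type
  | 0 => Unit
  | t + 1 => Om W t × W t

variable {W : ℕ → Type}

instance omF [∀ t, Fintype (W t)] : ∀ t, Fintype (Om W t)
  | 0 => inferInstanceAs (Fintype Unit)
  | t + 1 => @instFintypeProd _ _ (omF t) _

instance omN [∀ t, Nonempty (W t)] : ∀ t, Nonempty (Om W t)
  | 0 => inferInstanceAs (Nonempty Unit)
  | t + 1 => @instNonemptyProd _ _ (omN t) _

variable {C : Type} [Fintype C] [DecidableEq C]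

/-- the run with random gates `G` -/
noncomputable def tr (G : ∀ t, W t → Matrix C C ℂ) (ψ₀ : C → ℂ) : ∀ t, Om W t → C → ℂ
  | 0, _ => ψ₀
  | t + 1, w => G t w.2 *ᵥ tr G ψ₀ t w.1

lemma tr_congr {G G' : ∀ t, W t → Matrix C C ℂ} (ψ₀ : C → ℂ) :
    ∀ t, (∀ t' < t, G t' = G' t') → ∀ w, tr G ψ₀ t w = tr G' ψ₀ t w
  | 0, _, _ => rfl
  | t + 1, h, w => by
    simp only [tr, h t t.lt_succ_self, tr_congr ψ₀ t fun t' ht' => h t' (ht'.trans t.lt_succ_self)]

/-- deviation on `S`, exact gate elsewhere -/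
noncomputable def dev (G : ∀ t, W t → Matrix C C ℂ) (T : ℕ → Matrix C C ℂ) (S : Finset ℕ) :
    ∀ t, W t → Matrix C C ℂ := fun t v => if t ∈ S then G t v - T t else T t

lemma tr_expand (G : ∀ t, W t → Matrix C C ℂ) (T : ℕ → Matrix C C ℂ) (ψ₀ : C → ℂ) :
    ∀ t w, tr G ψ₀ t w = ∑ S ∈ (range t).powerset, tr (dev G T S) ψ₀ t w
  | 0, _ => by simp [tr]
  | t + 1, w => by
    rw [range_add_one, sum_powerset_insert notMem_range_self, ← sum_add_distrib, tr,
      tr_expand G T ψ₀ t, mulVec_sum]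
    refine sum_congr rfl fun S hS => ?_
    have h1 : t ∉ S := fun h => notMem_range_self (mem_powerset.1 hS h)
    have h2 := tr_congr (G := dev G T (insert t S)) (G' := dev G T S) ψ₀ t (fun t' ht' => by
      funext v; simp [dev, ht'.ne]) w.1
    simp only [tr, h2, dev, if_neg h1, mem_insert_self, if_true, ← add_mulVec, add_sub_cancel]

variable [∀ t, Fintype (W t)]

/-- second moment of a run -/
noncomputable def rho (G : ∀ t, W t → Matrix C C ℂ) (ψ₀ : C → ℂ) (t : ℕ) : Matrix C C ℂ :=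
  av fun w => vecMulVec (tr G ψ₀ t w) (star (tr G ψ₀ t w))

lemma rho_zero (G : ∀ t, W t → Matrix C C ℂ) (ψ₀ : C → ℂ) :
    rho G ψ₀ 0 = vecMulVec ψ₀ (star ψ₀) := av_const (W := Unit) _

lemma rho_succ (G : ∀ t, W t → Matrix C C ℂ) (ψ₀ : C → ℂ) (t : ℕ) :
    rho G ψ₀ (t + 1) = av fun v => G t v * rho G ψ₀ t * (G t v)ᴴ := by
  refine (av_prod (W := Om W t) (W' := W t) _).trans ?_
  rw [av_comm]
  congr 1; funext v
  rw [rho, mul_av, av_mul]
  congr 1; funext w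
  rw [mul_vecMulVec, vecMulVec_mul, ← star_mulVec]; rfl

lemma rho_psd (G : ∀ t, W t → Matrix C C ℂ) (ψ₀ : C → ℂ) (t : ℕ) : (rho G ψ₀ t).PosSemidef :=
  av_posSemidef fun _ => posSemidef_vecMulVec_self_star _

end Crest.Agent.N336.CL
private theorem rz_7641490fef : type_of% @_root_.Crest.Agent.N336.CL.tr.eq_def := @_root_.Crest.Agent.N336.CL.tr.eq_def -- L109
private theorem rz_ca89b3d850 : type_of% @_root_.Crest.Agent.N336.CL.tr.eq_1 := @_root_.Crest.Agent.N336.CL.tr.eq_1 -- L109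
end

-- ▼ part N336/P/CL/Main

/-!
# Row 336, compression lemma (helper52): `Crest.Agent.N336.P.cl : CLStmt`
-/

set_option autoImplicit false
set_option linter.unusedSectionVars false

open Matrix Finset
open scoped ComplexOrder MatrixOrder Matrix.Norms.L2Operator

namespace Crest.Agent.N336.CL

open Crest.MathPhysics.LatticeSpin P

variable {R Pa Λ : Type} [Fintype R] [DecidableEq R] [Fintype Pa] [DecidableEq Pa] [Fintype Λ]
  [DecidableEq Λ] {q : ℕ} {W : ℕ → Type} [∀ t, Fintype (W t)] [∀ t, Nonempty (W t)]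
  {g : ℕ → Gate R Pa q} {own : ℕ → R → Pa} {n B ℓ : ℕ} {δ : ℝ}
  {T : ∀ t, W t → Fin (g t).nb → Op R q} {ψ₀ : (R → Fin q) → ℂ}

/-- hypotheses on the sampled network -/
structure Hyp (g : ℕ → Gate R Pa q) (own : ℕ → R → Pa) (n B ℓ : ℕ) (δ : ℝ)
    (T : ∀ t, W t → Fin (g t).nb → Op R q) : Prop where
  valid : ∀ t < n, (g t).Valid B ℓ (own t) (own (t + 1))
  ne : ∀ t < n, (g t).I.Nonempty
  hsb : ∀ t < n, ∀ β, HSB δ fun w => T t w β - opOf ((g t).br β)
  supp : ∀ t < n, ∀ w β, Sp (Own (own t) (g t).I) (T t w β)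

/-- the gates of the `S`-term -/
noncomputable abbrev dv (T : ∀ t, W t → Fin (g t).nb → Op R q) (S : Finset ℕ) :
    ∀ t, W t → Op R q := dev (fun t v => ∑ β, T t v β) (fun t => (g t).op) S

lemma U_run (y₀ : R → Fin q) (h : Hyp g own n B ℓ δ T) (hψ : nsq ψ₀ ≤ 1) {S : Finset ℕ}
    {Inv : Finset Pa} (hS : ∀ t ∈ S, (g t).I ⊆ Inv) : ∀ t ≤ n,
    UU (Own (own t) Inv)ᶜ (rho (dv T S) ψ₀ t)
      (((B : ℝ) ^ 2) ^ #((range t).filter fun t' => ¬ Disjoint (g t').I Inv) *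
        δ ^ #((range t).filter (· ∈ S)))
  | 0, _ => by rw [rho_zero]; simpa using U.base _ hψ
  | t + 1, ht => by
    have ih := U_run y₀ h hψ hS t (Nat.le_of_succ_le ht)
    have hc : ∀ (p : ℕ → Prop) [DecidablePred p], #((range (t + 1)).filter p) =
        if p t then #((range t).filter p) + 1 else #((range t).filter p) := by
      intro p _
      rw [range_add_one, filter_insert]
      split_ifs
      · rw [card_insert_of_notMem (by simp)]
      · rfl
    rw [rho_succ, hc, hc]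
    by_cases h1 : t ∈ S
    · have h2 : ¬ Disjoint (g t).I Inv := fun h2 =>
        (h.ne t ht).ne_empty (disjoint_self.1 (h2.mono_right (hS t h1)))
      simp only [dev, if_pos h1, if_pos h2]
      refine (U_gate_dev (h.valid t ht) (hS t h1) (rho_psd _ _ _) ih (h.hsb t ht)
        (h.supp t ht)).mono (le_of_eq ?_)
      ring
    · simp only [dev, if_neg h1, av_const]
      by_cases h2 : Disjoint (g t).I Inv
      · rw [if_neg (not_not.2 h2)]
        exact U_gate_out (h.valid t ht) h2 ih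
      · rw [if_pos h2]
        exact (U_gate_meet y₀ (h.valid t ht) (rho_psd _ _ _) ih).mono (le_of_eq (by ring))

/-- a vector as a matrix junk × output -/
noncomputable def mt (e : Λ ↪ R) (ψ : (R → Fin q) → ℂ) :
    Matrix (Q.Rest (Q.rg e) fun _ => Fin q) (Λ → Fin q) ℂ :=
  Matrix.of fun j s => ψ (gl (d := fun _ => Fin q) e s j)

lemma mt_sum {α : Type*} (e : Λ ↪ R) (s : Finset α) (ψ : α → (R → Fin q) → ℂ) :
    mt e (∑ a ∈ s, ψ a) = ∑ a ∈ s, mt e (ψ a) := by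
  ext j s; simp [mt, Matrix.sum_apply]

lemma fro_mt (e : Λ ↪ R) (ψ : Vec R q) : fro (mt e ψ.ofLp) = ‖ψ‖ := by
  refine (pow_left_inj₀ (fro_nonneg _) (norm_nonneg _) two_ne_zero).1 ?_
  rw [fro_sq, ← nsq_eq, nsq, sum_cfg (d := fun _ => Fin q) e, sum_comm]; rfl

lemma av_mt {V : Type} [Fintype V] (e : Λ ↪ R) (ψ : V → (R → Fin q) → ℂ) :
    (av fun w => mt e (ψ w) * (mt e (ψ w))ᴴ) =
      pt (d := fun _ => Fin q) e (av fun w => vecMulVec (ψ w) (star (ψ w))) := by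
  ext j j'
  simp only [pt_apply, av_apply, ← av_sum, mul_apply]
  rfl

lemma pt_run (y₀ : R → Fin q) (h : Hyp g own n B ℓ δ T) (hψ : nsq ψ₀ ≤ 1) (hδ : 0 ≤ δ)
    {κ D m : ℕ} (e : Λ ↪ R) {fin : Λ → Pa} (he : ∀ z, own n (e z) = fin z)
    (hκ : ∀ p, #((range n).filter fun t => p ∈ (g t).I) ≤ κ)
    (hD : ∀ p, q ^ #(univ.filter fun z => fin z = p) ≤ D) (hD1 : 1 ≤ D) (hB : 1 ≤ B)
    {S : Finset ℕ} (hSn : S ⊆ range n) {Inv : Finset Pa} (hS : ∀ t ∈ S, (g t).I ⊆ Inv)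
    (hm : #Inv ≤ κ * m) :
    fro (pt (d := fun _ => Fin q) e (rho (dv T S) ψ₀ n)) ≤
      ((B : ℝ) ^ (2 * κ ^ 2) * (D : ℝ) ^ κ) ^ m * δ ^ #S := by
  have h1 := @U.pt' R Λ _ _ _ _ (fun _ => Fin q) _ _ _ _ _ (fun x => ⟨y₀ x⟩) e
    (U_run y₀ h hψ hS n le_rfl) ((univ.filter fun z => fin z ∈ Inv).map e)
    (map_subset_map.2 (subset_univ _)) fun r hr => by
      obtain ⟨z, rfl⟩ := Q.mem_rg.1 hr
      by_cases hz : fin z ∈ Inv <;> simp [Own, he, hz]
  have h2 : Q.dim (fun _ : R => Fin q) ((univ.filter fun z => fin z ∈ Inv).map e) ≤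
      D ^ (κ * m) := by
    rw [Q.dim_const, card_map, Fintype.card_fin, card_eq_sum_card_fiberwise (f := fin) (t := Inv)
      (s := univ.filter fun z => fin z ∈ Inv) (fun z hz => (mem_filter.1 hz).2),
      ← prod_pow_eq_pow_sum]
    refine (prod_le_pow_card _ _ D fun p hp => le_trans (le_of_eq ?_) (hD p)).trans
      (Nat.pow_le_pow_right hD1 hm)
    congr 2; ext z
    simp only [mem_filter, mem_univ, true_and, and_iff_right_iff_imp]
    rintro rfl; exact hp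
  have h3 : #((range n).filter fun t' => ¬ Disjoint (g t').I Inv) ≤ κ ^ 2 * m := by
    calc _ ≤ #(Inv.biUnion fun p => (range n).filter fun t => p ∈ (g t).I) := by
          refine card_le_card fun t ht => ?_
          obtain ⟨p, h4, h5⟩ := not_disjoint_iff.1 (mem_filter.1 ht).2
          exact mem_biUnion.2 ⟨p, h5, mem_filter.2 ⟨(mem_filter.1 ht).1, h4⟩⟩
      _ ≤ #Inv * κ := card_biUnion_le_card_mul _ _ _ fun p _ => hκ p
      _ ≤ κ ^ 2 * m := (Nat.mul_le_mul_right _ hm).trans (le_of_eq (by ring))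
  have h4 : (range n).filter (· ∈ S) = S := by
    ext t; simp only [mem_filter, and_iff_right_iff_imp]; exact fun ht => hSn ht
  have h5 : (1 : ℝ) ≤ (B : ℝ) ^ 2 := one_le_pow₀ (by exact_mod_cast hB)
  rw [h4] at h1
  refine h1.trans ?_
  calc _ ≤ (D : ℝ) ^ (κ * m) * (((B : ℝ) ^ 2) ^ (κ ^ 2 * m) * δ ^ #S) := by
        gcongr
        exact_mod_cast h2
    _ = _ := by rw [mul_pow, ← pow_mul, ← pow_mul, ← pow_mul, mul_assoc 2]; ring

lemma term_le (y₀ : R → Fin q) (h : Hyp g own n B ℓ δ T) (hψ : nsq ψ₀ ≤ 1) (hδ : 0 ≤ δ)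
    {κ D : ℕ} (e : Λ ↪ R) {fin : Λ → Pa} (he : ∀ z, own n (e z) = fin z)
    (hκ' : ∀ t < n, #(g t).I ≤ κ) (hκ : ∀ p, #((range n).filter fun t => p ∈ (g t).I) ≤ κ)
    (hD : ∀ p, q ^ #(univ.filter fun z => fin z = p) ≤ D) (hD1 : 1 ≤ D) (hB : 1 ≤ B)
    {S S' : Finset ℕ} (hS : S ⊆ range n) (hS' : S' ⊆ range n) :
    (av fun w : Om W n × Om W n =>
      fro ((mt e (tr (dv T S') ψ₀ n w.2))ᴴ * mt e (tr (dv T S) ψ₀ n w.1))) ≤
      ((B : ℝ) ^ (2 * κ ^ 2) * (D : ℝ) ^ κ * √δ) ^ #S *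
        ((B : ℝ) ^ (2 * κ ^ 2) * (D : ℝ) ^ κ * √δ) ^ #S' := by
  have hm : #((S ∪ S').biUnion fun t => (g t).I) ≤ κ * (#S + #S') :=
    (card_biUnion_le_card_mul _ _ κ fun t ht => hκ' t (mem_range.1 (union_subset hS hS' ht))).trans
      (by rw [mul_comm]; exact Nat.mul_le_mul_left _ (card_union_le _ _))
  have h1 := pt_run y₀ h hψ hδ e he hκ hD hD1 hB hS
    (fun t ht => subset_biUnion_of_mem (fun t => (g t).I) (mem_union_left _ ht)) hm
  have h2 := pt_run y₀ h hψ hδ e he hκ hD hD1 hB hS'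
    (fun t ht => subset_biUnion_of_mem (fun t => (g t).I) (mem_union_right _ ht)) hm
  refine (av_le_sqrt _).trans (Real.sqrt_le_iff.2 ⟨by positivity, ?_⟩)
  refine (second_moment (fun w => mt e (tr (dv T S) ψ₀ n w))
    fun w => mt e (tr (dv T S') ψ₀ n w)).trans ?_
  rw [av_mt, av_mt]
  refine (mul_le_mul h1 h2 (fro_nonneg _) (by positivity)).trans (le_of_eq ?_)
  conv_lhs => rw [← Real.sq_sqrt hδ]
  ring

lemma tr_empty (T : ∀ t, W t → Fin (g t).nb → Op R q) (ψ₀ : Vec R q) :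
    ∀ t w, tr (dv T ∅) ψ₀.ofLp t w = (run g ψ₀ t).ofLp
  | 0, _ => rfl
  | t + 1, w => by rw [tr, tr_empty T ψ₀ t]; rfl

lemma exists_sample (y₀ : R → Fin q) (h : Hyp g own n B ℓ δ T) {ψ₀ : Vec R q} (hψ : ‖ψ₀‖ ≤ 1)
    (hδ : 0 ≤ δ) {κ D : ℕ} (e : Λ ↪ R) {fin : Λ → Pa} (he : ∀ z, own n (e z) = fin z)
    (hκ' : ∀ t < n, #(g t).I ≤ κ) (hκ : ∀ p, #((range n).filter fun t => p ∈ (g t).I) ≤ κ)
    (hD : ∀ p, q ^ #(univ.filter fun z => fin z = p) ≤ D) {ε : ℝ} (hε : ε ≤ 1 / 4)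
    (hx : n * ((B : ℝ) ^ (2 * κ ^ 2) * (D : ℝ) ^ κ * √δ) ≤ ε) :
    ∃ w w' : Om W n, fro ((mt e (tr (fun t v => ∑ β, T t v β) ψ₀.ofLp n w'))ᴴ *
      mt e (tr (fun t v => ∑ β, T t v β) ψ₀.ofLp n w) -
      (mt e (run g ψ₀ n).ofLp)ᴴ * mt e (run g ψ₀ n).ofLp) ≤ 4 * ε := by
  set x := (B : ℝ) ^ (2 * κ ^ 2) * (D : ℝ) ^ κ * √δ with hxd
  have hx0 : 0 ≤ x := by positivity
  have hψ' : nsq ψ₀.ofLp ≤ 1 := by rw [nsq_eq]; exact pow_le_one₀ (norm_nonneg _) hψ
  let P := (range n).powerset ×ˢ (range n).powerset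
  have hP : ((∅ : Finset ℕ), (∅ : Finset ℕ)) ∈ P := by simp [P]
  let Y : Finset ℕ × Finset ℕ → Om W n × Om W n → Op Λ q := fun S w =>
    (mt e (tr (dv T S.2) ψ₀.ofLp n w.2))ᴴ * mt e (tr (dv T S.1) ψ₀.ofLp n w.1)
  obtain ⟨w, hw⟩ := exists_le_av fun w => fro (∑ S ∈ P.erase (∅, ∅), Y S w)
  refine ⟨w.1, w.2, le_trans (le_of_eq (congrArg fro ?_)) (hw.trans ?_)⟩
  · rw [sum_erase_eq_sub hP, tr_expand _ (fun t => (g t).op), tr_expand _ (fun t => (g t).op),
      mt_sum, mt_sum, conjTranspose_sum, Matrix.mul_sum, sum_product]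
    simp only [Y, tr_empty, Matrix.sum_mul]
  · refine (av_mono fun w => fro_sum_le _ _).trans ?_
    rw [av_sum]
    refine (sum_le_sum (g := fun S => x ^ #S.1 * x ^ #S.2) fun S hS => ?_).trans ?_
    · obtain ⟨h1, h2⟩ := mem_erase.1 hS
      obtain ⟨h2, h3⟩ := mem_product.1 h2
      have hn : 0 < n := Nat.pos_of_ne_zero fun hn => h1 (by
        subst hn; simp only [range_zero, powerset_empty, mem_singleton] at h2 h3
        exact Prod.ext h2 h3)
      obtain ⟨p, -⟩ := h.ne 0 hn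
      refine term_le y₀ h hψ' hδ e he hκ' hκ hD (le_trans ?_ (hD p))
        ((h.valid 0 hn).1.trans (h.valid 0 hn).2.1) (mem_powerset.1 h2) (mem_powerset.1 h3)
      rcases (univ.filter fun z => fin z = p).eq_empty_or_nonempty with h4 | ⟨z, -⟩
      · simp [h4]
      · exact Nat.one_le_pow _ _ (y₀ (e z)).pos
    · have h1 : ∑ S ∈ (range n).powerset, x ^ #S = (1 + x) ^ n := by
        have := prod_one_add (f := fun _ => x) (range n)
        simpa only [prod_const, card_range] using this.symm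
      rw [sum_erase_eq_sub hP, sum_product' _ _ fun S S' : Finset ℕ => x ^ #S * x ^ #S',
        ← sum_mul_sum, h1, ← pow_add]
      have := one_add_pow_le hx0 (n + n) (by push_cast; linarith)
      push_cast at this
      simp only [card_empty, pow_zero, mul_one]
      linarith

lemma partyForm_tr {V : ℕ} {I : ℕ → Finset Pa} {G : ∀ t, W t → Op R q}
    (h0 : PartyForm 0 V (own 0) I ψ₀)
    (h : ∀ t < n, ∀ w, SL V (own t) (own (t + 1)) (I t) (G t w)) :
    ∀ t ≤ n, ∀ w, PartyForm t V (own t) I (tr G ψ₀ t w)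
  | 0, _, _ => h0
  | t + 1, ht, w => partyForm_step (partyForm_tr h0 h t (Nat.le_of_succ_le ht) w.1) (h t ht w.2)

lemma mt_tgt (y₀ : R → Fin q) (e : Λ ↪ R) {φ : Vec Λ q} (hφ : ‖φ‖ = 1) {tgt : Vec R q}
    (htgt : ‖tgt‖ = 1) {jv : (R → Fin q) → ℂ}
    (hj1 : ∀ σ σ', (∀ r, r ∉ Set.range e → σ r = σ' r) → jv σ = jv σ')
    (hj2 : ∀ σ, tgt σ = φ (fun z => σ (e z)) * jv σ) :
    (mt e tgt.ofLp)ᴴ * mt e tgt.ofLp = vecMulVec (star φ.ofLp) φ.ofLp := by
  obtain ⟨v, e1⟩ : ∃ v : (Q.Rest (Q.rg e) fun _ => Fin q) → ℂ,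
      ∀ s j, mt e tgt.ofLp j s = φ s * v j := by
    refine ⟨fun j => jv (gl (d := fun _ => Fin q) e (fun z => y₀ (e z)) j), fun s j => ?_⟩
    rw [mt, of_apply, hj2, funext fun z => gl_in (d := fun _ => Fin q) e s j z]
    refine congrArg _ (hj1 _ _ fun r hr => ?_)
    have hr' : r ∉ Q.rg e := fun h => hr (Q.mem_rg.1 h)
    rw [gl_out _ _ _ _ hr', gl_out _ _ _ _ hr']
  have e2 : nsq v = 1 := by
    have e3 := fro_sq (mt e tgt.ofLp)
    rw [fro_mt, htgt] at e3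
    simp only [e1, norm_mul, mul_pow, ← sum_mul] at e3
    rw [← EuclideanSpace.norm_sq_eq, hφ] at e3
    simpa [nsq] using e3.symm
  ext s' s
  have e4 := star_dot_self v
  rw [e2, dotProduct] at e4
  simp only [mul_apply, conjTranspose_apply, e1, vecMulVec_apply, Pi.star_apply, star_mul'] at e4 ⊢
  rw [← mul_one (star (φ s') * φ s), ← Complex.ofReal_one, ← e4, mul_sum]
  exact sum_congr rfl fun j _ => by ring

lemma fro_gram_sub {J O : Type} [Fintype J] [Fintype O] {A Z : Matrix J O ℂ} {ε : ℝ}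
    (e3 : fro A = 1) (e2 : fro Z ≤ ε) (hε : ε ≤ 1) : fro ((A + Z)ᴴ * (A + Z) - Aᴴ * A) ≤ 3 * ε := by
  have e4 : (A + Z)ᴴ * (A + Z) - Aᴴ * A = Aᴴ * Z + (Zᴴ * A + Zᴴ * Z) := by
    simp only [conjTranspose_add, Matrix.add_mul, Matrix.mul_add]; abel
  have e5 := fro_mul_le Aᴴ Z
  have e6 := fro_mul_le Zᴴ A
  have e7 := fro_mul_le Zᴴ Z
  rw [fro_conjTranspose] at e5 e6 e7
  rw [e4]
  refine (fro_add_le _ _).trans ((add_le_add_right (fro_add_le _ _) _).trans ?_)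
  rw [e3] at e5 e6
  nlinarith [fro_nonneg Z]

lemma delta_le {k ℓ : ℕ} (hk : 1 ≤ k) (hℓ : 4 * ℓ ≤ k) :
    (1 + 1 / (k : ℝ)) ^ (2 * ℓ) - 1 ≤ 4 * ℓ / k := by
  have hk0 : (0 : ℝ) < k := by exact_mod_cast hk
  have h1 : (4 * ℓ : ℝ) ≤ k := by exact_mod_cast hℓ
  have h2 : ((2 * ℓ : ℕ) : ℝ) * (1 / k) = 2 * ℓ / k := by push_cast; ring
  have := one_add_pow_le (y := 1 / (k : ℝ)) (by positivity) (2 * ℓ)
    (by rw [h2, div_le_iff₀ hk0]; linarith)
  rw [h2] at this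
  linarith [show (4 * ℓ / k : ℝ) = 2 * (2 * ℓ / k) by ring]

end Crest.Agent.N336.CL

namespace Crest.Agent.N336.P

open CL

theorem cl : CLStmt := by
  intro q Λ Pa _ _ _ _ φ n B ℓ κ D k fin I ε hφ ⟨N⟩ h0 hε hI hκ hD hk hℓ hx
  obtain ⟨R, g, own, hgI, hv, ψ₀, hψ, ⟨f, hf1, hf2⟩, e, he, tgt, htgt, ⟨jv, hj1, hj2⟩, hcl⟩ := N
  obtain ⟨y₀⟩ : Nonempty (R → Fin q) := by
    by_contra hne
    rw [not_nonempty_iff] at hne
    rw [Subsingleton.elim tgt 0, norm_zero] at htgt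
    exact zero_ne_one htgt
  have hne : ∀ t < n, (g t).I.Nonempty := fun t ht => by rw [hgI t ht]; exact (hI t ht).1
  have hs : ∀ t, ∃ (W : Type) (_ : Fintype W) (_ : Nonempty W) (T : W → Fin (g t).nb → Op R q),
      t < n → (∀ β, HSB (4 * ℓ / k) fun w => T w β - opOf ((g t).br β)) ∧
      (∀ w β, Sp (Own (own t) (g t).I) (T w β)) ∧
      ∀ w, SL (B * k ^ (2 * ℓ)) (own t) (own (t + 1)) (I t) (∑ β, T w β) := by
    intro t
    by_cases ht : t < n
    · obtain ⟨W, i1, i2, T, h1, h2, h3⟩ := gate_samp y₀ (hv t ht) (hne t ht) hk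
      refine ⟨W, i1, i2, T, fun _ => ⟨fun β => (h1 β).mono (delta_le hk hℓ), h2, ?_⟩⟩
      rw [← hgI t ht]; exact h3
    · exact ⟨Unit, inferInstance, inferInstance, 0, fun h => absurd h ht⟩
  choose W hW hW' T hT using hs
  obtain ⟨w, w', hw⟩ := exists_sample (T := T) (κ := κ) y₀
    ⟨hv, hne, fun t ht => (hT t ht).1, fun t ht => (hT t ht).2.1⟩
    hψ (by positivity) e he (fun t ht => by rw [hgI t ht]; exact (hI t ht).2)
    (fun p => le_trans (le_of_eq (congrArg card (filter_congr fun t ht => by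
      rw [hgI t (mem_range.1 ht)]))) (hκ p)) hD (ε := ε) (by linarith)
    (by simpa only [mul_assoc] using hx)
  have hpf := partyForm_tr (W := W) (V := B * k ^ (2 * ℓ)) (I := I) (ψ₀ := ψ₀.ofLp)
    ⟨fun p σ _ => f p σ, fun p σ σ' _ _ h _ => hf1 p σ σ' h, fun σ => by simp [hf2]⟩
    (fun t ht => (hT t ht).2.2) n le_rfl
  have h2 : fro ((CL.mt e (run g ψ₀ n).ofLp)ᴴ * CL.mt e (run g ψ₀ n).ofLp -
      vecMulVec (star φ.ofLp) φ.ofLp) ≤ 3 * ε := by
    have e1 : CL.mt e (run g ψ₀ n).ofLp = CL.mt e tgt.ofLp + CL.mt e (run g ψ₀ n - tgt).ofLp := by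
      ext j s; simp [CL.mt]
    rw [← mt_tgt y₀ e hφ htgt hj1 hj2, e1]
    exact fro_gram_sub (by rw [fro_mt, htgt]) (by rw [fro_mt]; exact hcl) (by linarith)
  obtain ⟨s', hne, θ, hθ⟩ := near_of_fro _ φ hφ (e := 7 * ε) (by linarith) (by linarith)
    (((congrArg fro (sub_add_sub_cancel _ _ _).symm).trans_le (fro_add_le _ _)).trans
      ((add_le_add hw h2).trans (by linarith)))
  exact ⟨_, partyForm_row y₀ (hpf w) (hpf w') e he s', hne, θ, hθ.trans (by linarith)⟩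

end Crest.Agent.N336.P
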